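import Vale.Agent.P167.H871.Q.LF0

/-!
# P167, general `q`, START (L2S): the arcs of a family of rows

`ArcS`: an inner strand of the rows (an arc) which does not use the end faces: it enters a row at the
step `i`, crosses one lateral side (index `j` if it goes up, `i` if it goes down) and leaves the row at
the step `j`.
-/

namespace Vale.Agent.P167.H680.S

open Finset
open Vale.Agent.P167.FK
open Vale.Agent.P167.Top
open Vale.Agent.P167.H871
open Vale.Agent.P167.H871.Q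
open Vale.Agent.P167.H199 (strand ret Returns)
open Vale.Agent.P167.BR (be)
open Vale.Agent.P167.XDL (bS mem_bS)
open Vale.Agent.P167.H680.T (uI)
open Vale.Agent.P167.H825.Q (Row)

variable {ι : Type} [Fintype ι] {n : ℕ}

/-- `x` is the near side of the step `i`. -/
def IsN (q : ZMod n → ℤ × ℤ) (x : Ed) (i : ℕ) : Prop := x = be q (i : ZMod n)

/-- `x` is the far side of the square outside of the step `i`. -/
def IsF (q : ZMod n → ℤ × ℤ) (u : ℕ → ℤ) (x : Ed) (i : ℕ) : Prop :=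
  P4 x = M4 (q (i : ZMod n) + vec (u i - 1)) (u i)

/-- **An arc.** The lateral edge `nx ω x` has the sites `q j`, `yK q u j` (up), `q i`, `yK q u i`
(down). -/
structure ArcS (r : ι → Row) (q : ZMod n → ℤ × ℤ) (u : ℕ → ℤ) (c N : ℕ) (s e : ℕ → ℕ) (ω : Cfg)
    (x : Ed) (i j : ℕ) : Prop where
  hi : i < n
  hj : j < n
  ri : InK n c N s e i
  rj : InK n c N s e j
  ret : ret (nx ω) (bS (uI r)) x = 2
  hd : hdv x = sqL (q (i : ZMod n)) (u i - 1)
  hd1 : hdv (nx ω x) = sqL (q (j : ZMod n)) (u j - 1)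
  cs : (((IsN q x i ∧ ω (hdv x) = false) ∨ (IsF q u x i ∧ ω (hdv x) = true)) ∧
      j = (i + 1) % n ∧ u j = (if i + 1 = n then u i - 4 else u i) ∧
      ls (nx ω x) = q (j : ZMod n) ∧ rs (nx ω x) = yK q u j ∧
      (ω (hdv (nx ω x)) = false → IsN q (nx ω (nx ω x)) j) ∧
      (ω (hdv (nx ω x)) = true → IsF q u (nx ω (nx ω x)) j)) ∨
    (((IsN q x i ∧ ω (hdv x) = true) ∨ (IsF q u x i ∧ ω (hdv x) = false)) ∧
      i = (j + 1) % n ∧ u i = (if j + 1 = n then u j - 4 else u j) ∧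
      rs (nx ω x) = q (i : ZMod n) ∧ ls (nx ω x) = yK q u i ∧
      (ω (hdv (nx ω x)) = true → IsN q (nx ω (nx ω x)) j) ∧
      (ω (hdv (nx ω x)) = false → IsF q u (nx ω (nx ω x)) j))

/-- **[ARC]** The arcs which do not use the end faces. -/
def ArcH (r : ι → Row) (q : ZMod n → ℤ × ℤ) (u : ℕ → ℤ) (c N : ℕ) (s e : ℕ → ℕ) : Prop :=
  ∀ (ω : Cfg) (x : Ed), hdv x ∈ uI r → tlv x ∉ uI r → tlv x ∉ endK q u c N s e →
    hdv (nx ω x) ∉ endK q u c N s e → ∃ i j, ArcS r q u c N s e ω x i j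

end Vale.Agent.P167.H680.S
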