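import Vale.Agent.P167.H680.S.FrE
import Vale.Agent.P167.H825.S.L2

/-!
# P167, general `q`: L2S from its part (d)
-/

set_option autoImplicit false

namespace Vale.Agent.P167.H680.S

open Vale.Agent.P167.H825.S (FrameC FrameD FrameE l2s_of)

variable {θ β : ℝ}

/-- **(L2S (c))** in the form of the assembly. -/
theorem frameC (h0 : 0 < θ) (h1 : θ ≤ Real.pi / 3)
    (hβ : β = (θ - Real.pi) / 2 ∨ β = (Real.pi - 3 * θ) / 2) : FrameC θ β := by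
  intro l _ p S₀ hp hD Q hQ bc hb g hg hbg δ hδ hδg n hn R₃ R' hR hR' ω ω' g1 g2 f1 f2 c1 c2 hag
  exact frame_c hp hD hQ hg hδ (by linarith) hn hb hbg h0 h1 hβ hR hR' g1 g2 f1 f2 c1 c2 hag

/-- **(L2S (e))** in the form of the assembly. -/
theorem frameE (h0 : 0 < θ) (h1 : θ ≤ Real.pi / 3)
    (hβ : β = (θ - Real.pi) / 2 ∨ β = (Real.pi - 3 * θ) / 2) : FrameE θ β := by
  intro l _ p S₀ hp hD Q hQ bc hb g hg hbg
  refine ⟨max 1 (cE θ (Fintype.card (Fin l × Fin (Q.m + 1)))), le_max_left _ _, ?_⟩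
  intro δ hδ hδg n hn R₃ R' ρ hR hR' hρ0 hρ hρ' ω g1 f1 c1 hne
  obtain ⟨k1, k2⟩ := frame_e hp hD hQ hg hδ (by linarith) hn hb hbg h0 h1 hβ hR hR' hρ0 hρ hρ' g1
    f1 c1 hne
  exact k2.trans (mul_le_mul_of_nonneg_right (le_max_right _ _) k1.le)

/-- **L2S is (d).** -/
theorem l2s_d (h0 : 0 < θ) (h1 : θ ≤ Real.pi / 3)
    (hβ : β = (θ - Real.pi) / 2 ∨ β = (Real.pi - 3 * θ) / 2) (h : FrameD θ β) :
    H398.Q.L2S θ β :=
  l2s_of h0 h1 hβ (frameC h0 h1 hβ) h (frameE h0 h1 hβ)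

end Vale.Agent.P167.H680.S
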