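import Vale.Agent.P167.H680.S.Loop

/-!
# P167, general `q`, START (L2S): loops without mixed lateral sides have one colour
-/

namespace Vale.Agent.P167.H680.S

open Finset
open Vale.Agent.P167.FK
open Vale.Agent.P167.BR
open Vale.Agent.P167.Top
open Vale.Agent.P167.H871
open Vale.Agent.P167.H871.Q
open Vale.Agent.P167.E6 (IsPolygon Encloses)
open Vale.Agent.P167.H199 (strand ret Returns loop_iter loop_nx mem_strand ret_min)
open Vale.Agent.P167.XDL (bS mem_bS exists_idx P4_be)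
open Vale.Agent.P167.H680.T (uI)
open Vale.Agent.P167.H825.Q (Row)
open Vale.Agent.P167.QX (VisL exists_strand_loop returns_loop out_stays in_stays)

variable {ι : Type} [Fintype ι] {r : ι → Row} {θ β : ℝ} {x b b0 : Ed} {ω : Cfg} {n : ℕ}
  {q : ZMod n → ℤ × ℤ} {D : Finset (ℤ × ℤ)} {u : ℕ → ℤ} {ka c N : ℕ} {s e : ℕ → ℕ}
  {B : Set (ℤ × ℤ)} {ℓ : Finset Ed}

/-- There is an edge across every step. -/
theorem exists_P4 (v : ℤ × ℤ) (t : ℤ) : ∃ x, P4 x = M4 v t := by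
  rcases head_cases t with ⟨a, b, c⟩ | ⟨a, b, c⟩ | ⟨a, b, c⟩ | ⟨a, b, c⟩
  · refine ⟨Sum.inr (v.1, v.2 - 1), ?_⟩
    rw [M4_eq, b, c]; simp only [P4, me]; ext <;> simp only <;> ring
  · refine ⟨Sum.inl (v.1 - 1, v.2), ?_⟩
    rw [M4_eq, b, c]; simp only [P4, me]; ext <;> simp only <;> ring
  · refine ⟨Sum.inr (v.1 - 1, v.2 - 1), ?_⟩
    rw [M4_eq, b, c]; simp only [P4, me]; ext <;> simp only <;> ring
  · refine ⟨Sum.inl (v.1 - 1, v.2 - 1), ?_⟩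
    rw [M4_eq, b, c]; simp only [P4, me]; ext <;> simp only <;> ring

/-- Winding numbers are constant across edges which are not on the loop. -/
theorem W_eq_of (hl : IsLoop ω ℓ) (hx : x ∉ ℓ) : W ℓ (ls x) = W ℓ (rs x) := by
  have := s_jump ω ℓ hl x
  rw [if_neg hx] at this
  omega

theorem W_path (hl : IsLoop ω ℓ) {v : ℤ × ℤ} {t : ℤ} (h : ∀ x, P4 x = M4 v t → x ∉ ℓ) :
    W ℓ (v + vec t) = W ℓ v := by
  obtain ⟨x, hx⟩ := exists_P4 v t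
  have h1 := W_eq_of hl (h x hx)
  rcases ends_M4 hx with ⟨h2, h3, -⟩ | ⟨h2, h3, -⟩
  · rw [h2, h3] at h1; exact h1.symm
  · rw [h2, h3] at h1; exact h1

namespace Ctx

variable (F : Fam θ β r q D u ka c N s e) (C : Ctx r q D u ka c N s e B ω ℓ)

include C in
/-- Off the rows the loop does not cross the boundary of the domain. -/
theorem no_cross (hb : b ∈ bS (uI r)) (hbℓ : b ∈ ℓ) {k : ℕ}
    (hk : k < ret (nx ω) (bS (uI r)) b) : hdv ((nx ω)^[k] b) ∈ D ↔ hdv b ∈ D := by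
  induction k with
  | zero => rfl
  | succ k ih =>
    rw [← ih (by omega)]
    by_contra hne
    have h1 : (nx ω)^[k + 1] b ∈ bS D := by
      rw [mem_bS]
      have h2 : tlv ((nx ω)^[k + 1] b) = hdv ((nx ω)^[k] b) := by
        rw [Function.iterate_succ_apply', tlv_nx]
      rw [h2]
      tauto
    exact C.hd_off (loop_iter C.hl hbℓ _) (C.hB2 _ h1 (ret_min (by omega) hk))

include F C in
/-- A loop with near sides stays in the domain and the rows. -/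
theorem near_in (hm : ∀ b ∈ bS (uI r), b ∈ ℓ → Nr D b) (hS : ∃ b ∈ bS (uI r), b ∈ ℓ)
    (hx : x ∈ ℓ) : hdv x ∈ D ∨ hdv x ∈ uI r := by
  obtain ⟨b, hb, hxb⟩ := exists_strand_loop C.hl hS hx
  obtain ⟨hb1, hb2⟩ := mem_filter.1 hb
  obtain ⟨k, hk, rfl⟩ := mem_strand.1 hxb
  by_cases h : hdv b ∈ uI r
  · exact Or.inr (in_stays h hk)
  · left
    rw [C.no_cross hb1 hb2 hk]
    rcases hm b hb1 hb2 with h1 | h1
    · exact h1
    · exact absurd h1 (F.nin (exit_of hb1 h))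

include F C in
/-- A loop with far sides does not visit the domain. -/
theorem far_out (hm : ∀ b ∈ bS (uI r), b ∈ ℓ → ¬ Nr D b) (hS : ∃ b ∈ bS (uI r), b ∈ ℓ)
    (hx : x ∈ ℓ) : hdv x ∉ D := by
  obtain ⟨b, hb, hxb⟩ := exists_strand_loop C.hl hS hx
  obtain ⟨hb1, hb2⟩ := mem_filter.1 hb
  obtain ⟨k, hk, rfl⟩ := mem_strand.1 hxb
  rw [C.no_cross hb1 hb2 hk]
  exact fun h => hm b hb1 hb2 (Or.inl h)

include F C in
/-- The winding number is constant on the far sites of the rows. -/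
theorem W_far (hm : ∀ b ∈ bS (uI r), b ∈ ℓ → Nr D b) (hS : ∃ b ∈ bS (uI r), b ∈ ℓ) {i j : ℕ}
    (hi : InK n c N s e i) (hj : InK n c N s e j) : W ℓ (yK q u i) = W ℓ (yK q u j) := by
  obtain ⟨n', P', u', f, hbd, -, -, -, -, h4, -, -⟩ := exists_bumps F.hR
  have hin : ∀ x ∈ ℓ, hdv x ∈ ((D : Set (ℤ × ℤ)) ∪ rws (fun k => q ((k + c : ℕ) : ZMod n))
      (fun k => u (k + c)) N s e) := by
    intro x hx
    rw [← F.hK]
    rcases C.near_in F hm hS hx with h | h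
    · exact Or.inl (mem_coe.2 h)
    · exact Or.inr (mem_coe.2 h)
  have hcst : ∀ k, W ℓ (P' k) = W ℓ (P' 0) := by
    intro k
    induction k with
    | zero => rfl
    | succ k ih =>
      rw [← ih, hbd.step k]
      refine W_path C.hl fun x hx hxℓ => ?_
      have g1 := hbd.right k
      rcases ends_M4 hx with ⟨-, -, -, h5⟩ | ⟨-, -, h5, -⟩
      · obtain ⟨y, hy, rfl⟩ := C.pre hxℓ
        rw [tlv_nx] at h5
        exact g1 (h5 ▸ hin y hy)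
      · exact g1 (h5 ▸ hin x hxℓ)
  have key : ∀ i, InK n c N s e i → W ℓ (yK q u i) = W ℓ (P' 0) := by
    intro i hi
    obtain ⟨w, hw, hR, rfl⟩ := win F hi
    rw [← yK_mod F, ← h4 w hw hR]
    exact hcst _
  rw [key i hi, key j hj]

include F C in
/-- The winding number is constant on the polygon. -/
theorem W_near (hm : ∀ b ∈ bS (uI r), b ∈ ℓ → ¬ Nr D b) (hS : ∃ b ∈ bS (uI r), b ∈ ℓ) (k : ℕ) :
    W ℓ (q (k : ZMod n)) = W ℓ (q ((0 : ℕ) : ZMod n)) := by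
  induction k with
  | zero => rfl
  | succ k ih =>
    rw [← ih, F.hu.step k]
    refine W_path C.hl fun x hx hxℓ => ?_
    have g1 : sqL (q (k : ZMod n)) (u k) ∈ D := mem_coe.1 (F.hu.left k)
    rcases ends_M4 hx with ⟨-, -, h5, -⟩ | ⟨-, -, -, h5⟩
    · exact C.far_out F hm hS hxℓ (h5 ▸ g1)
    · obtain ⟨y, hy, rfl⟩ := C.pre hxℓ
      rw [tlv_nx] at h5
      exact C.far_out F hm hS hy (h5 ▸ g1)

include F C in
/-- **A loop with near sides has one colour.** -/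
theorem col_near (hmix : NoMix (uI r) ω ℓ) (hm : ∀ b ∈ bS (uI r), b ∈ ℓ → Nr D b)
    (hS : ∃ b ∈ bS (uI r), b ∈ ℓ) :
    ∃ τ : Bool, ∀ b ∈ bS (uI r), b ∈ ℓ → ω (ksq (uI r) b) = τ := by
  have hj : ∀ x ∈ ℓ, W ℓ (ls x) = W ℓ (rs x) + 1 := fun x hx => by
    have := s_jump ω ℓ C.hl x
    rw [if_pos hx] at this
    omega
  obtain ⟨b1, hb1, hb1ℓ⟩ := hS
  have hS : ∃ b ∈ bS (uI r), b ∈ ℓ := ⟨b1, hb1, hb1ℓ⟩
  -- the colour from the winding number at the far site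
  have key : ∀ b ∈ bS (uI r), b ∈ ℓ → hdv b ∈ uI r → ∃ k, InK n c N s e k ∧
      ((ω (hdv b) = false ∧ W ℓ (yK q u k) + 1 = W ℓ (ls b1)) ∨
        (ω (hdv b) = true ∧ W ℓ (yK q u k) = W ℓ (ls b1))) := by
    intro b hb hbℓ h1
    obtain ⟨i, j, A⟩ := C.entry hbℓ h1 (entry_of hb h1)
    have h2 := loop_nx C.hl hbℓ
    have h3 := W_ls_const C.hl hb1ℓ h2
    have h4 := hj _ h2
    have hN := hm b hb hbℓ
    have nF : ∀ {y : Ed} {k : ℕ}, InK n c N s e k → IsF q u y k → ¬ Nr D y := fun hk h h' => by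
      obtain ⟨f1, f2⟩ := far_D F hk h
      rcases h' with h' | h'
      · exact f1 h'
      · exact f2 h'
    rcases A.cs with ⟨⟨a1, a2⟩ | ⟨a1, a2⟩, -, -, c1, c2, -⟩ | ⟨⟨a1, a2⟩ | ⟨a1, a2⟩, -, -, c1, c2, -⟩
    · exact ⟨j, A.rj, Or.inl ⟨a2, by rw [← c2, ← h3, h4]⟩⟩
    · exact absurd hN (nF A.ri a1)
    · exact ⟨i, A.ri, Or.inr ⟨a2, by rw [← c2, ← h3]⟩⟩
    · exact absurd hN (nF A.ri a1)
  by_cases h0 : ∃ b ∈ bS (uI r), b ∈ ℓ ∧ hdv b ∈ uI r ∧ ω (hdv b) = true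
  · obtain ⟨b0, h1, h2, h3, h4⟩ := h0
    refine ⟨true, fun b hb hbℓ => col_of_entry hmix F C (fun b hb hbℓ hbK => ?_) hb hbℓ⟩
    obtain ⟨k, hk, h5⟩ := key b0 h1 h2 h3
    obtain ⟨k', hk', h6⟩ := key b hb hbℓ hbK
    have h7 := C.W_far F hm hS hk hk'
    rcases h5 with ⟨h5, -⟩ | ⟨-, h5⟩
    · rw [h4] at h5; exact absurd h5 (by simp)
    · rcases h6 with ⟨-, h6⟩ | ⟨h6, -⟩
      · omega
      · exact h6
  · refine ⟨false, fun b hb hbℓ => col_of_entry hmix F C (fun b hb hbℓ hbK => ?_) hb hbℓ⟩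
    by_contra h
    exact h0 ⟨b, hb, hbℓ, hbK, by simpa using h⟩

include F C in
/-- **A loop with far sides has one colour.** -/
theorem col_far (hmix : NoMix (uI r) ω ℓ) (hm : ∀ b ∈ bS (uI r), b ∈ ℓ → ¬ Nr D b)
    (hS : ∃ b ∈ bS (uI r), b ∈ ℓ) :
    ∃ τ : Bool, ∀ b ∈ bS (uI r), b ∈ ℓ → ω (ksq (uI r) b) = τ := by
  have hj : ∀ x ∈ ℓ, W ℓ (ls x) = W ℓ (rs x) + 1 := fun x hx => by
    have := s_jump ω ℓ C.hl x
    rw [if_pos hx] at this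
    omega
  obtain ⟨b1, hb1, hb1ℓ⟩ := hS
  have hS : ∃ b ∈ bS (uI r), b ∈ ℓ := ⟨b1, hb1, hb1ℓ⟩
  have key : ∀ b ∈ bS (uI r), b ∈ ℓ → hdv b ∈ uI r →
      ((ω (hdv b) = true ∧ W ℓ (q ((0 : ℕ) : ZMod n)) = W ℓ (ls b1)) ∨
        (ω (hdv b) = false ∧ W ℓ (q ((0 : ℕ) : ZMod n)) + 1 = W ℓ (ls b1))) := by
    intro b hb hbℓ h1
    obtain ⟨i, j, A⟩ := C.entry hbℓ h1 (entry_of hb h1)
    have h2 := loop_nx C.hl hbℓ
    have h3 := W_ls_const C.hl hb1ℓ h2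
    have h4 := hj _ h2
    have hN := hm b hb hbℓ
    rcases A.cs with ⟨⟨a1, a2⟩ | ⟨a1, a2⟩, -, -, c1, c2, -⟩ | ⟨⟨a1, a2⟩ | ⟨a1, a2⟩, -, -, c1, c2, -⟩
    · exact absurd (near_D F a1) hN
    · exact Or.inl ⟨a2, by rw [← C.W_near F hm hS j, ← c1, ← h3]⟩
    · exact absurd (near_D F a1) hN
    · exact Or.inr ⟨a2, by rw [← C.W_near F hm hS i, ← c1, ← h3, h4]⟩
  by_cases h0 : ∃ b ∈ bS (uI r), b ∈ ℓ ∧ hdv b ∈ uI r ∧ ω (hdv b) = true
  · obtain ⟨b0, h1, h2, h3, h4⟩ := h0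
    refine ⟨true, fun b hb hbℓ => col_of_entry hmix F C (fun b hb hbℓ hbK => ?_) hb hbℓ⟩
    rcases key b0 h1 h2 h3 with ⟨-, h5⟩ | ⟨h5, -⟩
    · rcases key b hb hbℓ hbK with ⟨h6, -⟩ | ⟨-, h6⟩
      · exact h6
      · omega
    · rw [h4] at h5; exact absurd h5 (by simp)
  · refine ⟨false, fun b hb hbℓ => col_of_entry hmix F C (fun b hb hbℓ hbK => ?_) hb hbℓ⟩
    by_contra h
    exact h0 ⟨b, hb, hbℓ, hbK, by simpa using h⟩

end Ctx

end Vale.Agent.P167.H680.S
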