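import Vale.Agent.P167.H680.S.Pure

/-!
# P167, general `q`, START (L2S): far loops; the arcs over the base point
-/

namespace Vale.Agent.P167.H680.S

open Finset
open Vale.Agent.P167.FK
open Vale.Agent.P167.BR
open Vale.Agent.P167.Top
open Vale.Agent.P167.H871
open Vale.Agent.P167.H871.Q
open Vale.Agent.P167.E6 (IsPolygon Encloses)
open Vale.Agent.P167.H199 (strand ret Returns loop_iter loop_nx mem_strand ret_min)
open Vale.Agent.P167.XDL (bS mem_bS exists_idx P4_be)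
open Vale.Agent.P167.H680.T (uI rowC)
open Vale.Agent.P167.H825.Q (Row)
open Vale.Agent.P167.QX (VisL wS fLp card_out_in)

variable {ι : Type} [Fintype ι] {r : ι → Row} {θ β : ℝ} {x b b0 : Ed} {ω : Cfg} {n : ℕ}
  {q : ZMod n → ℤ × ℤ} {D : Finset (ℤ × ℤ)} {u : ℕ → ℤ} {ka c N : ℕ} {s e : ℕ → ℕ}
  {B : Set (ℤ × ℤ)} {ℓ : Finset Ed}

/-- Products of functions of natural numbers with a small sum. -/
theorem prod_small {α : Type} [DecidableEq α] {f : ℤ → ℝ} (h0 : f 0 = 1) (X : Finset α) (κ : α → ℤ)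
    (hκ : ∀ b ∈ X, κ b = 0 ∨ κ b = 1 ∨ κ b = 2) :
    0 ≤ ∑ b ∈ X, κ b ∧ (∑ b ∈ X, κ b = 0 → ∏ b ∈ X, f (κ b) = 1) ∧
    (∑ b ∈ X, κ b = 1 → ∏ b ∈ X, f (κ b) = f 1) ∧
    (∑ b ∈ X, κ b = 2 → ∏ b ∈ X, f (κ b) = f 1 ^ 2 ∨ ∏ b ∈ X, f (κ b) = f 2) := by
  induction X using Finset.induction_on with
  | empty => simp
  | insert a X ha ih =>
    obtain ⟨i0, i1, i2, i3⟩ := ih fun b hb => hκ b (mem_insert_of_mem hb)
    rw [sum_insert ha, prod_insert ha]
    rcases hκ a (mem_insert_self a X) with h | h | h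
    · rw [h, h0, zero_add, one_mul]
      exact ⟨i0, i1, i2, i3⟩
    · rw [h]
      refine ⟨by omega, fun h1 => by omega, fun h1 => ?_, fun h1 => Or.inl ?_⟩
      · rw [i1 (by omega), mul_one]
      · rw [i2 (by omega)]; ring
    · rw [h]
      refine ⟨by omega, fun h1 => by omega, fun h1 => by omega, fun h1 => Or.inr ?_⟩
      rw [i1 (by omega), mul_one]

namespace Ctx

variable (F : Fam θ β r q D u ka c N s e) (C : Ctx r q D u ka c N s e B ω ℓ)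

include F C in
/-- The arc over the base point on a far loop of one colour. -/
theorem wrap_far {τ : Bool} (hτ : ∀ b ∈ bS (uI r), b ∈ ℓ → ω (ksq (uI r) b) = τ)
    (hb : b ∈ Wr q u c N s e (uI r) ω ℓ) (hN : ¬ Nr D b) :
    IsF q u b (if τ = true then n - 1 else 0) := by
  obtain ⟨h1, h2, h3, h4⟩ := mem_Wr.1 hb
  obtain ⟨i, j, A⟩ := C.entry h3 h2 (entry_of h1 h2)
  have hn := n_pos F
  have i1 : idx q u c N s e (hdv b) = i := idx_of F A.ri A.hd
  have i2 : idx q u c N s e (hdv (nx ω b)) = j := idx_of F A.rj A.hd1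
  have c1 : ω (hdv b) = τ := by rw [← hτ b h1 h3, ksq_in h2]
  have hi := A.hi
  have hj := A.hj
  unfold Wrap at h4
  rw [i1, i2] at h4
  rcases A.cs with ⟨⟨a1, a2⟩ | ⟨a1, a2⟩, a3, -⟩ | ⟨⟨a1, a2⟩ | ⟨a1, a2⟩, a3, -⟩
  · exact absurd (near_D F a1) hN
  · rw [if_pos (c1.symm.trans a2)]
    rcases h4 with ⟨h5, h6⟩ | ⟨h5, h6⟩
    · rw [show n - 1 = i by omega]; exact a1
    · exfalso
      rw [h5, zero_add, Nat.mod_eq_of_lt (by omega)] at a3
      omega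
  · exact absurd (near_D F a1) hN
  · rw [if_neg (by rw [← c1, a2]; simp)]
    rcases h4 with ⟨h5, h6⟩ | ⟨h5, h6⟩
    · exfalso
      rw [h6, zero_add, Nat.mod_eq_of_lt (by omega)] at a3
      omega
    · rw [← h5]; exact a1

include F C in
/-- The arc over the base point on a near loop of one colour. -/
theorem wrap_near {τ : Bool} (hτ : ∀ b ∈ bS (uI r), b ∈ ℓ → ω (ksq (uI r) b) = τ)
    (hb : b ∈ Wr q u c N s e (uI r) ω ℓ) (hN : Nr D b) :
    IsN q b (if τ = true then 0 else n - 1) := by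
  obtain ⟨h1, h2, h3, h4⟩ := mem_Wr.1 hb
  obtain ⟨i, j, A⟩ := C.entry h3 h2 (entry_of h1 h2)
  have hn := n_pos F
  have i1 : idx q u c N s e (hdv b) = i := idx_of F A.ri A.hd
  have i2 : idx q u c N s e (hdv (nx ω b)) = j := idx_of F A.rj A.hd1
  have c1 : ω (hdv b) = τ := by rw [← hτ b h1 h3, ksq_in h2]
  have hi := A.hi
  have hj := A.hj
  have nF : ∀ {y : Ed} {k : ℕ}, InK n c N s e k → IsF q u y k → ¬ Nr D y := fun hk h h' => by
    obtain ⟨f1, f2⟩ := far_D F hk h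
    rcases h' with h' | h'
    · exact f1 h'
    · exact f2 h'
  unfold Wrap at h4
  rw [i1, i2] at h4
  rcases A.cs with ⟨⟨a1, a2⟩ | ⟨a1, a2⟩, a3, -⟩ | ⟨⟨a1, a2⟩ | ⟨a1, a2⟩, a3, -⟩
  · rw [if_neg (by rw [← c1, a2]; simp)]
    rcases h4 with ⟨h5, h6⟩ | ⟨h5, h6⟩
    · rw [show n - 1 = i by omega]; exact a1
    · exfalso
      rw [h5, zero_add, Nat.mod_eq_of_lt (by omega)] at a3
      omega
  · exact absurd hN (nF A.ri a1)
  · rw [if_pos (c1.symm.trans a2)]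
    rcases h4 with ⟨h5, h6⟩ | ⟨h5, h6⟩
    · exfalso
      rw [h6, zero_add, Nat.mod_eq_of_lt (by omega)] at a3
      omega
    · rw [← h5]; exact a1
  · exact absurd hN (nF A.ri a1)

include F C in
theorem card_wrap_far {τ : Bool} (hτ : ∀ b ∈ bS (uI r), b ∈ ℓ → ω (ksq (uI r) b) = τ)
    (hN : ∀ b ∈ bS (uI r), b ∈ ℓ → ¬ Nr D b) : (Wr q u c N s e (uI r) ω ℓ).card ≤ 1 := by
  rw [card_le_one]
  intro b hb b' hb'
  have h1 := C.wrap_far F hτ hb (hN b (mem_Wr.1 hb).1 (mem_Wr.1 hb).2.2.1)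
  have h2 := C.wrap_far F hτ hb' (hN b' (mem_Wr.1 hb').1 (mem_Wr.1 hb').2.2.1)
  exact P4_inj (h1.trans h2.symm)

include F C in
/-- **The factor of a far loop**: `0`, or `1` (not over the base point), or one of three positive
values. -/
theorem fLp_far (hmix : NoMix (uI r) ω ℓ) (hN : ∀ b ∈ bS (uI r), b ∈ ℓ → ¬ Nr D b)
    (hs : Real.sin θ ≠ 0) (hc : Real.cos θ ≠ 0) (hS : ∃ b ∈ bS (uI r), b ∈ ℓ) :
    (Wr q u c N s e (uI r) ω ℓ).card ≤ 1 ∧
    (fLp θ (uI r) (rowC θ r 0).ph ω ℓ = 0 ∨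
      ((Wr q u c N s e (uI r) ω ℓ).card = 0 ∧ fLp θ (uI r) (rowC θ r 0).ph ω ℓ = 1) ∨
      ((Wr q u c N s e (uI r) ω ℓ).card = 1 ∧ (fLp θ (uI r) (rowC θ r 0).ph ω ℓ = 1 / (2 * Real.cos θ) ∨
        fLp θ (uI r) (rowC θ r 0).ph ω ℓ = 2 * Real.cos θ ∨
        fLp θ (uI r) (rowC θ r 0).ph ω ℓ = fW θ 2 / (2 * Real.cos θ)))) := by
  classical
  obtain ⟨τ, hτ⟩ := C.col_far F hmix hN hS
  have hw := C.card_wrap_far F hτ hN
  refine ⟨hw, ?_⟩
  have h1 := C.sum_far F hmix hN hs hS hτ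
  have h2 : ∀ b ∈ Xs (uI r) ℓ, (κS q u c N s e (uI r) ω τ b = -1 ∨
      κS q u c N s e (uI r) ω τ b = 0 ∨ κS q u c N s e (uI r) ω τ b = 1 ∨
      κS q u c N s e (uI r) ω τ b = 2) ∧
      wS θ (uI r) (rowC θ r 0).ph ω b = fW θ (κS q u c N s e (uI r) ω τ b) := by
    intro b hb
    obtain ⟨g1, g2, g3⟩ := mem_Xs.1 hb
    obtain ⟨κ, g4, g5, g6⟩ := C.far_exit F hs hτ g1 g3 g2 (hN b g1 g3)
    rw [κS_eq g5, g6]
    exact ⟨g4, rfl⟩
  rw [fLp_Xs, prod_congr rfl fun b hb => (h2 b hb).2]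
  by_cases h3 : ∃ b ∈ Xs (uI r) ℓ, κS q u c N s e (uI r) ω τ b = -1
  · obtain ⟨b, hb, h4⟩ := h3
    left
    rw [prod_eq_zero hb (by rw [h4, fW_m1]), zero_div]
  · right
    push Not at h3
    have h4 : ∀ b ∈ Xs (uI r) ℓ, κS q u c N s e (uI r) ω τ b = 0 ∨
        κS q u c N s e (uI r) ω τ b = 1 ∨ κS q u c N s e (uI r) ω τ b = 2 := fun b hb => by
      rcases (h2 b hb).1 with h | h
      · exact absurd h (h3 b hb)
      · exact h
    obtain ⟨p0, p1, p2, p3⟩ := prod_small (fW_0 hs) _ _ h4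
    set w := (Wr q u c N s e (uI r) ω ℓ).card
    set T := ∑ b ∈ Xs (uI r) ℓ, κS q u c N s e (uI r) ω τ b
    have hcc : 2 * Real.cos θ ≠ 0 := mul_ne_zero two_ne_zero hc
    rcases (by omega : w = 0 ∨ w = 1) with h5 | h5
    · left
      refine ⟨h5, ?_⟩
      rw [p2 (by omega), fW_1 hs, div_self hcc]
    · right
      refine ⟨h5, ?_⟩
      rcases h1 with h1 | h1
      · rcases p3 (by omega) with h6 | h6
        · right; left
          rw [h6, fW_1 hs]; field_simp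
        · right; right
          rw [h6]
      · left
        rw [p1 (by omega)]

end Ctx

end Vale.Agent.P167.H680.S
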