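import Vale.Agent.P167.H680.S.Low
import Vale.Agent.P167.H592.U.FrB

/-!
# P167, general `q`, L2S (c): the product over the loops off the holes of the frame does not depend on
the squares of the domain
-/

set_option autoImplicit false

namespace Vale.Agent.P167.H680.S

open Finset
open Vale.Agent.P167.FK
open Vale.Agent.P167.Top
open Vale.Agent.P167.E6 (IsPolygon Encloses dir face)
open Vale.Agent.P167.H825 (enl pdir Marks)
open Vale.Agent.P167.H825.Q (Row Bc frow)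
open Vale.Agent.P167.H680.T (rowC uI frows)
open Vale.Agent.P167.H398.Q (hB Frz bcol Cnf)
open Vale.Agent.P167.H199 (Gap Returns ret)
open Vale.Agent.P167.H662 (hsite)
open Vale.Agent.P167.H871 (Bd sqL)
open Vale.Agent.P167.H871.Q (Fam endK InK frame_end frame_hole)
open Vale.Agent.P167.XDL (bS mem_bS)
open Vale.Agent.P167.QX (VisL TO fLp)
open Vale.Agent.P167.H825.Jun (mixE mem_mixE)
open Vale.Agent.P167.Enl (qN uN sR eR tB kOf BGap frame_fam frame_ctx frame_col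
  box_clr base_steps window op_near nm_tri nm_sub_comm nm_nonneg vp mem_Bq' gn_big tB_lt sqL_kOf fl_one
  theta_nonneg floor_far base_far)

variable {l : ℕ} {p : ZMod l → ℤ × ℤ} {n : ℕ} {S₀ : Finset (ℤ × ℤ)} {Q : Marks} {bc : Bc}
  {θ β : ℝ}

section frame

variable (hp : IsPolygon p) (hD : Encloses p S₀) (hQ : Q.Ok) {g δ : ℝ} (hg : Gap Q l g)
  (hδ : 0 < δ) (hδg : 4 * δ ≤ g) (hn : 16 ≤ δ * n)

include hp hD hQ hg hδ hδg hn in
/-- The geometry of the frame. -/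
theorem frame_gc (hb : bc.Ok l Q) {R : ℤ} (hR : (⌊δ * n⌋₊ : ℤ) + 4 ≤ R) {ω : Cfg} (hg' : Good ω)
    (hω : Frz (frows θ β p Q n ⌊δ * n⌋₊ bc) ω) :
    GC (frows θ β p Q n ⌊δ * n⌋₊ bc) (qN p n (tB n Q)) (enl S₀ n) (uN p n (tB n Q))
      (bc.ka l n (tB n Q)) (l * n - tB n Q) (l * (Q.m + 1)) (sR p n Q ⌊δ * n⌋₊)
      (eR p n Q ⌊δ * n⌋₊) (hB p Q n R : Set (ℤ × ℤ)) ω where
  hg := hg'
  hB1 _ hv := frame_end hp hD hQ hg hδ hδg hn hR hv
  hB2 _ h1 h2 := frame_hole hp hD hQ hg hδ hδg hn hR h1 h2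
  hcol z hz := frame_col hp hD hQ hg hδ hδg hn hb hω z
    (InK_lt (frame_fam (θ := θ) (β := β) hp hD hQ hg hδ hδg hn hb) hz) hz
  hA := (frame_fam (θ := θ) (β := β) hp hD hQ hg hδ hδg hn hb).arcH

include hp hD hQ hg hδ hδg hn in
/-- The base point and the junction are far from the marks. -/
theorem spec_far (hbg : BGap l Q g bc) {R' : ℤ} (hR' : (2 * R' : ℝ) + 8 < g * n) {v : ℤ × ℤ}
    (hv : Spc (qN p n (tB n Q)) (uN p n (tB n Q)) (bc.ka l n (tB n Q)) v)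
    (x : Fin l × Fin (Q.m + 1)) : v ∉ Bq (hsite p Q n x) R' := by
  intro hin
  have hl0 : 0 < l := by have := hp.1; omega
  obtain ⟨-, -, -, b4, b5⟩ := gn_big hQ hg hδg hn hl0
  have ht := tB_lt (n := n) hQ b5
  have hn0 : (0 : ℝ) ≤ n := Nat.cast_nonneg n
  have h0 : ∀ i σ : ℕ, Enl.op p n i σ ∈ Bq (hsite p Q n x) R' → nm (vp p n i σ - hsite p Q n x) ≤ R' + 1 := by
    intro i σ h
    have a1 := op_near (p := p) (n := n) i σ
    have a2 := nm_tri (vp p n i σ) (Enl.op p n i σ) (hsite p Q n x)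
    have a3 := mem_Bq' h
    rw [nm_sub_comm (vp p n i σ) (Enl.op p n i σ)] at a2
    omega
  have hR0 : 0 ≤ R' := (nm_nonneg _).trans (mem_Bq' hin)
  have hR0' : (0 : ℝ) ≤ R' := by exact_mod_cast hR0
  have ht0 : 0 < tB n Q := by
    have h1 := (base_far (n := n) hQ hg (m := 0) le_rfl (by push_cast; linarith) x).1.1
    exact_mod_cast h1
  -- the steps at the base point
  have hbs : ∀ σ : ℕ, σ < n → σ ≤ tB n Q → tB n Q ≤ σ + 1 → Enl.op p n 0 σ ∉ Bq (hsite p Q n x) R' :=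
    fun σ h1 h2 h3 h4 => base_steps hp hQ hg (m := R' + 1) (by push_cast; linarith) h1 h2 h3
      (h0 0 σ h4)
  have hkk : ∀ i σ : ℕ, i < l → σ < n →
      sq (qN p n (tB n Q)) (uN p n (tB n Q)) (kOf l n (tB n Q) i σ) = Enl.op p n i σ :=
    fun i σ hi hσ => sqL_kOf hp hD ht hi hσ
  rcases hv with rfl | rfl | ⟨hk0, hk1, hv⟩
  · have h1 : kOf l n (tB n Q) 0 (tB n Q) = 0 := by
      unfold kOf
      rw [if_pos (by omega)]
      omega
    have h2 := hkk 0 (tB n Q) hl0 ht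
    rw [h1] at h2
    rw [h2] at hin
    exact hbs _ ht le_rfl (by omega) hin
  · have hln : n ≤ l * n := by nlinarith
    have h1 : kOf l n (tB n Q) 0 (tB n Q - 1) = l * n - 1 := by
      unfold kOf
      rw [if_neg (by omega)]
      omega
    have h2 := hkk 0 (tB n Q - 1) hl0 (by omega)
    rw [h1] at h2
    rw [h2] at hin
    exact hbs _ (by omega) (by omega) (by omega) hin
  · rcases bc with _ | _ | ⟨ia, ta⟩
    · exact absurd hk1 (lt_irrefl _)
    · exact absurd hk0 (lt_irrefl _)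
    · obtain ⟨c1, c2, c3, c4, c5⟩ := hbg
      have hn1 : (0 : ℝ) < n := by exact_mod_cast b5
      have hτ : ⌊ta * n⌋₊ < n := by
        rw [Nat.floor_lt (by positivity)]
        nlinarith
      have hfar : ∀ j ≤ Q.m + 1, g * n - 1 ≤ |((⌊ta * n⌋₊ : ℕ) : ℝ) - (⌊Q.θ ia j * n⌋₊ : ℕ)| := by
        intro j hj
        refine floor_far (by positivity) (mul_nonneg (theta_nonneg hQ ia hj) hn0) ?_
        rw [← sub_mul, abs_mul, abs_of_nonneg hn0, abs_sub_comm]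
        exact mul_le_mul_of_nonneg_right (c5 j hj) hn0
      have hlow := hfar 0 (by omega)
      rw [Enl.fl_zero hQ, Nat.cast_zero, sub_zero, abs_of_nonneg (Nat.cast_nonneg _)] at hlow
      have hhigh := hfar (Q.m + 1) le_rfl
      rw [fl_one hQ] at hhigh
      have hτ' : ((⌊ta * n⌋₊ : ℕ) : ℝ) < n := by exact_mod_cast hτ
      rw [abs_of_neg (by linarith)] at hhigh
      have hs1 : 1 ≤ ⌊ta * n⌋₊ := by
        have : (1 : ℝ) ≤ (⌊ta * n⌋₊ : ℕ) := by linarith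
        exact_mod_cast this
      have key : ∀ σ : ℕ, σ ≤ ⌊ta * n⌋₊ → ⌊ta * n⌋₊ ≤ σ + 1 →
          Enl.op p n ia σ ∉ Bq (hsite p Q n x) R' := by
        intro σ s1 s2 h
        have hw := window hp hQ hg (m := R' + 1) (by push_cast; linarith) (x := x) (i := ia) c2
          (by omega : σ < n) (h0 ia σ h)
        have s1' : (σ : ℝ) ≤ (⌊ta * n⌋₊ : ℕ) := by exact_mod_cast s1
        have s2' : ((⌊ta * n⌋₊ : ℕ) : ℝ) ≤ σ + 1 := by exact_mod_cast s2
        rcases hw with ⟨e1, e2⟩ | ⟨-, -, e3⟩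
        · have e4 := hfar x.2 (by omega)
          rw [e1] at e4
          have e5 : |(σ : ℝ) - (⌊Q.θ x.1 x.2 * n⌋₊ : ℕ)| ≤ R' + 1 := by
            have : (|(σ : ℤ) - (⌊Q.θ x.1 x.2 * n⌋₊ : ℕ)| : ℝ) ≤ ((R' + 1 : ℤ) : ℝ) := by
              exact_mod_cast e2
            push_cast at this
            exact this
          rw [abs_le] at e5
          rcases le_abs.1 e4 with e6 | e6 <;> linarith [e5.1, e5.2]
        · have e4 : ((n : ℤ) : ℝ) - ((σ : ℤ) : ℝ) ≤ ((R' + 1 : ℤ) : ℝ) := by exact_mod_cast e3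
          push_cast at e4
          linarith
      have hka : (Bc.dob ia ta).ka l n (tB n Q) = kOf l n (tB n Q) ia ⌊ta * n⌋₊ := rfl
      rcases hv with rfl | rfl
      · rw [hka, hkk ia _ c2 hτ] at hin
        exact key _ le_rfl (by omega) hin
      · have hi : n ≤ ia * n := by nlinarith
        have e1 : kOf l n (tB n Q) ia ⌊ta * n⌋₊ - 1 = kOf l n (tB n Q) ia (⌊ta * n⌋₊ - 1) := by
          unfold kOf
          rw [if_pos (by omega), if_pos (by omega)]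
          omega
        rw [hka, e1, hkk ia _ c2 (by omega)] at hin
        exact key _ (by omega) (by omega) hin

include hp hD hQ hg hδ hδg hn in
/-- Loops over the base point or the junction do not visit the holes. -/
theorem spec_off (hbg : BGap l Q g bc) {R R' : ℤ} (hR' : (2 * R' : ℝ) + 8 < g * n) {ω : Cfg}
    (hC : Cnf p Q n R R' ω) {ℓ : Finset Ed} (hl : IsLoop ω ℓ)
    (h : ∃ b ∈ ℓ, Spc (qN p n (tB n Q)) (uN p n (tB n Q)) (bc.ka l n (tB n Q)) (hdv b)) :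
    ¬ VisL (hB p Q n R : Set (ℤ × ℤ)) ℓ := by
  intro hv
  obtain ⟨b, hb, hb'⟩ := h
  obtain ⟨x, hx⟩ := hC ℓ hl hv
  exact spec_far hp hD hQ hg hδ hδg hn hbg hR' hb' x (hx _ (mem_image_of_mem _ hb))

/-- The angle at the junction. -/
theorem cos_beta (hβ : β = (θ - Real.pi) / 2 ∨ β = (Real.pi - 3 * θ) / 2) :
    Real.cos (θ / 2 + β) = Real.sin θ := by
  rcases hβ with rfl | rfl
  · rw [show θ / 2 + (θ - Real.pi) / 2 = -(Real.pi / 2 - θ) by ring, Real.cos_neg,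
      Real.cos_pi_div_two_sub]
  · rw [show θ / 2 + (Real.pi - 3 * θ) / 2 = Real.pi / 2 - θ by ring, Real.cos_pi_div_two_sub]

include hp hD hQ hg hδ hδg hn in
/-- **(L2S (c))** -/
theorem frame_c (hb : bc.Ok l Q) (hbg : BGap l Q g bc) (hθ : 0 < θ) (hθ' : θ ≤ Real.pi / 3)
    (hβ : β = (θ - Real.pi) / 2 ∨ β = (Real.pi - 3 * θ) / 2) {R R' : ℤ}
    (hR : (⌊δ * n⌋₊ : ℤ) + 4 ≤ R) (hR' : (2 * R' : ℝ) + 8 < g * n) {ω ω' : Cfg}
    (h1 : Good ω) (h1' : Good ω') (h2 : Frz (frows θ β p Q n ⌊δ * n⌋₊ bc) ω)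
    (h2' : Frz (frows θ β p Q n ⌊δ * n⌋₊ bc) ω') (h3 : Cnf p Q n R R' ω) (h3' : Cnf p Q n R R' ω')
    (hag : ∀ v ∉ enl S₀ n, v ∉ hB p Q n R → ω v = ω' v) :
    TO θ (uI (frows θ β p Q n ⌊δ * n⌋₊ bc)) (rowC θ (frows θ β p Q n ⌊δ * n⌋₊ bc) 0).ph
        (hB p Q n R) ω =
      TO θ (uI (frows θ β p Q n ⌊δ * n⌋₊ bc)) (rowC θ (frows θ β p Q n ⌊δ * n⌋₊ bc) 0).ph
        (hB p Q n R) ω' := by
  have hpi := Real.pi_pos
  have hs : 0 < Real.sin θ := Real.sin_pos_of_pos_of_lt_pi hθ (by linarith)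
  have hc : 0 < Real.cos θ := Real.cos_pos_of_mem_Ioo ⟨by linarith, by linarith⟩
  have F := frame_fam (θ := θ) (β := β) (bc := bc) hp hD hQ hg hδ hδg hn hb
  exact TO_agree F (frame_gc hp hD hQ hg hδ hδg hn hb hR h1 h2)
    (frame_gc hp hD hQ hg hδ hδg hn hb hR h1' h2') hs.ne' hc.ne' (fun _ _ => cos_beta hβ)
    (fun v hv hv' => hag v hv (by simpa using hv'))
    (fun ℓ hl h => spec_off hp hD hQ hg hδ hδg hn hbg hR' h3 hl h)
    (fun ℓ hl h => spec_off hp hD hQ hg hδ hδg hn hbg hR' h3' hl h)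

end frame

end Vale.Agent.P167.H680.S
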