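import Vale.Agent.P167.H680.S.FrC

/-!
# P167, general `q`, L2S (e): the lower bound of the product over the loops off the holes of the frame
-/

set_option autoImplicit false

namespace Vale.Agent.P167.H680.S

open Finset
open Vale.Agent.P167.FK
open Vale.Agent.P167.Top
open Vale.Agent.P167.E6 (IsPolygon Encloses dir face)
open Vale.Agent.P167.H825 (enl pdir Marks)
open Vale.Agent.P167.H825.Q (Row Bc frow)
open Vale.Agent.P167.H680.T (rowC uI frows)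
open Vale.Agent.P167.H398.Q (hB Frz bcol Cnf Tjun)
open Vale.Agent.P167.H199 (Gap Returns ret loop_iter)
open Vale.Agent.P167.H662 (hsite)
open Vale.Agent.P167.H871 (Bd sqL)
open Vale.Agent.P167.H871.Q (Fam endK InK frame_end frame_hole)
open Vale.Agent.P167.XDL (bS mem_bS)
open Vale.Agent.P167.QX (VisL TO fLp lst exc_last)
open Vale.Agent.P167.H825.Jun (mixE mem_mixE jun_dob jun_fw)
open Vale.Agent.P167.H506.Q (MZ one_le_two_cos)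
open Vale.Agent.P167.Enl (qN uN sR eR tB kOf BGap frame_fam box_clr)

variable {l : ℕ} {p : ZMod l → ℤ × ℤ} {n : ℕ} {S₀ : Finset (ℤ × ℤ)} {Q : Marks} {bc : Bc}
  {θ β : ℝ}

section frame

variable (hp : IsPolygon p) (hD : Encloses p S₀) (hQ : Q.Ok) {g δ : ℝ} (hg : Gap Q l g)
  (hδ : 0 < δ) (hδg : 4 * δ ≤ g) (hn : 16 ≤ δ * n)

include hp hD hQ hg hδ hδg hn in
/-- The loops of the mixed strands do not visit the holes. -/
theorem mix_off (hb : bc.Ok l Q) (hbg : BGap l Q g bc) {R R' : ℤ} (hR' : (2 * R' : ℝ) + 8 < g * n)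
    {ω : Cfg} (hω : Frz (frows θ β p Q n ⌊δ * n⌋₊ bc) ω) (hC : Cnf p Q n R R' ω) {b : Ed}
    (hb' : b ∈ mixE (uI (frows θ β p Q n ⌊δ * n⌋₊ bc)) (enl S₀ n) ω) {ℓ : Finset Ed}
    (hl : IsLoop ω ℓ) (hbl : b ∈ ℓ) : ¬ VisL (hB p Q n R : Set (ℤ × ℤ)) ℓ := by
  intro hv
  obtain ⟨x, hx⟩ := hC ℓ hl hv
  obtain ⟨g1, g2, -, g4, -, g6⟩ := mem_mixE.1 hb'
  have h1 : tlv b ∈ uI (frows θ β p Q n ⌊δ * n⌋₊ bc) := by
    rw [mem_bS] at g1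
    tauto
  have h2 : hdv (lst (uI (frows θ β p Q n ⌊δ * n⌋₊ bc)) ω b) ∈
      uI (frows θ β p Q n ⌊δ * n⌋₊ bc) := (exc_last g2 g4).1
  have k1 : tlv b ∈ Bq (hsite p Q n x) R' := by
    have h3 := hl.image
    have h4 := hbl
    rw [← h3, mem_image] at h4
    obtain ⟨y, hy, rfl⟩ := h4
    rw [tlv_nx]
    exact hx _ (mem_image_of_mem _ hy)
  have k2 : hdv (lst (uI (frows θ β p Q n ⌊δ * n⌋₊ bc)) ω b) ∈ Bq (hsite p Q n x) R' :=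
    hx _ (mem_image_of_mem _ (loop_iter hl hbl _))
  apply g6
  rw [box_clr hp hD hQ hg hδ hδg hn hb hbg (by linarith) hω x h1 k1,
    box_clr hp hD hQ hg hδ hδg hn hb hbg (by linarith) hω x h2 k2]

/-- The constant of (e). -/
noncomputable def cE (θ : ℝ) (N : ℕ) : ℝ := MZ θ ^ (12 * N) / cTO θ

theorem cE_pos (hθ : 0 < θ) (hθ' : θ ≤ Real.pi / 3) (N : ℕ) : 0 < cE θ N := by
  have h1 : 1 ≤ MZ θ := le_max_left _ _
  have := cTO_pos hθ hθ'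
  unfold cE
  positivity

include hp hD hQ hg hδ hδg hn in
/-- **The lower bound of the product over the loops off the holes of the frame.** -/
theorem frame_low (hb : bc.Ok l Q) (hbg : BGap l Q g bc) (hθ : 0 < θ) (hθ' : θ ≤ Real.pi / 3)
    (hβ : β = (θ - Real.pi) / 2 ∨ β = (Real.pi - 3 * θ) / 2) {R R' : ℤ}
    (hR : (⌊δ * n⌋₊ : ℤ) + 4 ≤ R) (hR' : (2 * R' : ℝ) + 8 < g * n) {ω : Cfg}
    (h1 : Good ω) (h2 : Frz (frows θ β p Q n ⌊δ * n⌋₊ bc) ω) (h3 : Cnf p Q n R R' ω)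
    (h0 : TO θ (uI (frows θ β p Q n ⌊δ * n⌋₊ bc)) (rowC θ (frows θ β p Q n ⌊δ * n⌋₊ bc) 0).ph
      (hB p Q n R) ω ≠ 0) :
    cTO θ * (2 * Real.cos θ) ^
        (mixE (uI (frows θ β p Q n ⌊δ * n⌋₊ bc)) (enl S₀ n) ω).card ≤
      TO θ (uI (frows θ β p Q n ⌊δ * n⌋₊ bc)) (rowC θ (frows θ β p Q n ⌊δ * n⌋₊ bc) 0).ph
        (hB p Q n R) ω :=
  TO_low (frame_fam (θ := θ) (β := β) (bc := bc) hp hD hQ hg hδ hδg hn hb)
    (frame_gc hp hD hQ hg hδ hδg hn hb hR h1 h2) hθ hθ' (fun _ _ => hβ)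
    (fun _ hb' _ hl hbl => mix_off hp hD hQ hg hδ hδg hn hb hbg hR' h2 h3 hb' hl hbl) h0

include hp hD hQ hg hδ hδg hn in
/-- **(L2S (e))** -/
theorem frame_e (hb : bc.Ok l Q) (hbg : BGap l Q g bc) (hθ : 0 < θ) (hθ' : θ ≤ Real.pi / 3)
    (hβ : β = (θ - Real.pi) / 2 ∨ β = (Real.pi - 3 * θ) / 2) {R R' ρ : ℤ}
    (hR : (⌊δ * n⌋₊ : ℤ) + 4 ≤ R) (hR' : (2 * R' : ℝ) + 8 < g * n) (hρ0 : 2 ≤ ρ)
    (hρ : (4 * ρ : ℝ) + 8 ≤ g * n) (hρ' : (2 * ρ : ℝ) + 2 * (δ * n) + 20 < g * n) {ω : Cfg}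
    (h1 : Good ω) (h2 : Frz (frows θ β p Q n ⌊δ * n⌋₊ bc) ω) (h3 : Cnf p Q n R R' ω)
    (h0 : TO θ (uI (frows θ β p Q n ⌊δ * n⌋₊ bc)) (rowC θ (frows θ β p Q n ⌊δ * n⌋₊ bc) 0).ph
      (hB p Q n R) ω ≠ 0) :
    0 < TO θ (uI (frows θ β p Q n ⌊δ * n⌋₊ bc)) (rowC θ (frows θ β p Q n ⌊δ * n⌋₊ bc) 0).ph
        (hB p Q n R) ω ∧
    Tjun θ (frows θ β p Q n ⌊δ * n⌋₊ bc) ρ ω ≤
      cE θ (Fintype.card (Fin l × Fin (Q.m + 1))) *
        TO θ (uI (frows θ β p Q n ⌊δ * n⌋₊ bc)) (rowC θ (frows θ β p Q n ⌊δ * n⌋₊ bc) 0).ph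
          (hB p Q n R) ω := by
  have hL := frame_low (θ := θ) (β := β) hp hD hQ hg hδ hδg hn hb hbg hθ hθ' hβ hR hR' h1 h2 h3 h0
  have hc := cTO_pos hθ hθ'
  have hcos := one_le_two_cos hθ hθ'
  have hM : 1 ≤ MZ θ ^ (12 * Fintype.card (Fin l × Fin (Q.m + 1))) :=
    one_le_pow₀ (le_max_left _ _)
  set T := TO θ (uI (frows θ β p Q n ⌊δ * n⌋₊ bc)) (rowC θ (frows θ β p Q n ⌊δ * n⌋₊ bc) 0).ph
        (hB p Q n R) ω with hT
  have hpow : 1 ≤ (2 * Real.cos θ) ^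
      (mixE (uI (frows θ β p Q n ⌊δ * n⌋₊ bc)) (enl S₀ n) ω).card := one_le_pow₀ hcos
  have hTpos : 0 < T := lt_of_lt_of_le (mul_pos hc (by linarith)) hL
  refine ⟨hTpos, ?_⟩
  have e1 : cE θ (Fintype.card (Fin l × Fin (Q.m + 1))) * T =
      MZ θ ^ (12 * Fintype.card (Fin l × Fin (Q.m + 1))) * (T / cTO θ) := by
    unfold cE
    ring
  have hTc : (2 * Real.cos θ) ^
      (mixE (uI (frows θ β p Q n ⌊δ * n⌋₊ bc)) (enl S₀ n) ω).card ≤ T / cTO θ := by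
    rw [le_div_iff₀ hc, mul_comm]
    exact hL
  rw [e1]
  have hbc : (bc = .free ∨ bc = .wired) ∨ ∃ ia ta, bc = .dob ia ta := by
    rcases bc with _ | _ | ⟨ia, ta⟩
    · exact Or.inl (Or.inl rfl)
    · exact Or.inl (Or.inr rfl)
    · exact Or.inr ⟨ia, ta, rfl⟩
  rcases hbc with hbc | ⟨ia, ta, rfl⟩
  · refine (jun_fw (β := β) hp hD hQ hθ hθ' hβ hg hb hbg hδ hδg hn hbc hρ0 hρ h1).trans ?_
    exact le_mul_of_one_le_right (by linarith) (hpow.trans hTc)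
  · refine (jun_dob (β := β) hp hD hQ hθ hθ' hβ hg hbg hδ hδg hn (by omega) hρ' h2).trans ?_
    exact hTc.trans (le_mul_of_one_le_left (by linarith [hpow.trans hTc]) hM)

end frame

end Vale.Agent.P167.H680.S
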