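import Vale.Agent.P167.H680.S.Site

/-!
# P167, general `q`, START (L2S): the edges of the rows on a loop off the holes

`Ctx`: a loop which does not visit the holes. Its exits are interior or exterior strands, its entries are
arcs. If it crosses no lateral side between squares of different colours, all its sides are near or all
are far (`type_const`), and its squares have one colour (`col_near`, `col_far`).
-/

namespace Vale.Agent.P167.H680.S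

open Finset
open Vale.Agent.P167.FK
open Vale.Agent.P167.BR
open Vale.Agent.P167.Top
open Vale.Agent.P167.H871
open Vale.Agent.P167.H871.Q
open Vale.Agent.P167.E6 (IsPolygon Encloses)
open Vale.Agent.P167.H199 (strand ret Returns loop_iter loop_nx)
open Vale.Agent.P167.XDL (bS mem_bS exists_idx P4_be)
open Vale.Agent.P167.H680.T (uI)
open Vale.Agent.P167.H825.Q (Row)
open Vale.Agent.P167.QX (VisL)

variable {ι : Type} [Fintype ι] {r : ι → Row} {θ β : ℝ} {x b b0 : Ed} {ω : Cfg} {n : ℕ}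
  {q : ZMod n → ℤ × ℤ} {D : Finset (ℤ × ℤ)} {u : ℕ → ℤ} {ka c N : ℕ} {s e : ℕ → ℕ}
  {B : Set (ℤ × ℤ)} {ℓ : Finset Ed}

/-- A loop off the holes. -/
structure Ctx (r : ι → Row) {n : ℕ} (q : ZMod n → ℤ × ℤ) (D : Finset (ℤ × ℤ)) (u : ℕ → ℤ)
    (ka c N : ℕ) (s e : ℕ → ℕ) (B : Set (ℤ × ℤ)) (ω : Cfg) (ℓ : Finset Ed) : Prop where
  hg : Good ω
  hB1 : ∀ v ∈ endK q u c N s e, v ∈ B
  hB2 : ∀ y ∈ bS D, y ∉ bS (uI r) → hdv y ∈ B
  hcol : ∀ z, InK n c N s e z → ω (sq q u z) = decide (¬ z < ka)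
  hA : ArcH r q u c N s e
  hl : IsLoop ω ℓ
  hv : ¬ VisL B ℓ

/-- The square of the rows at a side. -/
def ksq (K : Finset (ℤ × ℤ)) (b : Ed) : ℤ × ℤ := if hdv b ∈ K then hdv b else tlv b

/-- Near side. -/
def Nr (D : Finset (ℤ × ℤ)) (b : Ed) : Prop := hdv b ∈ D ∨ tlv b ∈ D

/-- No lateral side between squares of different colours. -/
def NoMix (K : Finset (ℤ × ℤ)) (ω : Cfg) (ℓ : Finset Ed) : Prop :=
  ∀ z ∈ ℓ, hdv z ∈ K → tlv z ∈ K → ω (hdv z) = ω (tlv z)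

theorem ksq_in {K : Finset (ℤ × ℤ)} (h : hdv b ∈ K) : ksq K b = hdv b := if_pos h

theorem ksq_out {K : Finset (ℤ × ℤ)} (h : hdv b ∉ K) : ksq K b = tlv b := if_neg h

theorem exit_of {K : Finset (ℤ × ℤ)} (h1 : b ∈ bS K) (h : hdv b ∉ K) : tlv b ∈ K := by
  rw [mem_bS] at h1
  tauto

theorem entry_of {K : Finset (ℤ × ℤ)} (h1 : b ∈ bS K) (h : hdv b ∈ K) : tlv b ∉ K := by
  rw [mem_bS] at h1
  tauto

theorem trn_col (ω : Cfg) (x : Ed) : trn ω x = if ω (hdv x) = true then -1 else 1 := rfl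

namespace Ctx

variable (F : Fam θ β r q D u ka c N s e) (C : Ctx r q D u ka c N s e B ω ℓ)

include C in
theorem pre (hx : x ∈ ℓ) : ∃ y ∈ ℓ, nx ω y = x := by
  have h1 := C.hl.image
  rw [← h1, mem_image] at hx
  exact hx

include C in
theorem tl_off (hx : x ∈ ℓ) : tlv x ∉ B := by
  obtain ⟨y, hy, rfl⟩ := C.pre hx
  rw [tlv_nx]
  exact fun h => C.hv ⟨y, hy, h⟩

include C in
theorem hd_off (hx : x ∈ ℓ) : hdv x ∉ B := fun h => C.hv ⟨x, hx, h⟩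

include C in
/-- The entries are arcs. -/
theorem entry (hx : x ∈ ℓ) (h1 : hdv x ∈ uI r) (h2 : tlv x ∉ uI r) :
    ∃ i j, ArcS r q u c N s e ω x i j :=
  C.hA ω x h1 h2 (fun h => C.tl_off hx (C.hB1 _ h))
    (fun h => C.hd_off (loop_nx C.hl hx) (C.hB1 _ h))

include F C in
/-- The exits are interior or exterior strands. -/
theorem exit (hx : x ∈ ℓ) (h1 : tlv x ∈ uI r) (h2 : hdv x ∉ uI r) :
    Returns (nx ω) (bS (uI r)) x ∧ ((hdv x ∈ D ∧ ∃ i j, IntS r q u c N s e ω x i j) ∨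
      (hdv x ∉ D ∧ (∀ k < ret (nx ω) (bS (uI r)) x, hdv ((nx ω)^[k] x) ∉ D) ∧
        ∃ i j σ φ, ExtS r q D u c N s e ω x i j σ φ)) :=
  F.cases C.hg C.hB1 C.hB2 C.hl C.hv hx h1 h2

/-- The next side after an arc. -/
theorem arc_nxt {i j : ℕ} (A : ArcS r q u c N s e ω b i j) :
    nxt (bS (uI r)) ω b = nx ω (nx ω b) := by
  unfold nxt
  rw [A.ret]
  rfl

theorem arc_tr {i j : ℕ} (A : ArcS r q u c N s e ω b i j) :
    trS (bS (uI r)) ω b = trn ω b + trn ω (nx ω b) := by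
  unfold trS
  rw [A.ret]
  simp [sum_range_succ]

theorem arc_exit {i j : ℕ} (hl : IsLoop ω ℓ) (hb : b ∈ bS (uI r)) (hbℓ : b ∈ ℓ)
    (A : ArcS r q u c N s e ω b i j) (h1 : hdv (nx ω b) ∈ uI r) :
    hdv (nxt (bS (uI r)) ω b) ∉ uI r ∧ tlv (nxt (bS (uI r)) ω b) = hdv (nx ω b) := by
  obtain ⟨h2, h3⟩ := nxt_mem hl hb hbℓ
  have h4 : tlv (nxt (bS (uI r)) ω b) = hdv (nx ω b) := by rw [arc_nxt A, tlv_nx]
  refine ⟨?_, h4⟩
  rw [mem_bS] at h2
  rw [h4] at h2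
  tauto

end Ctx

theorem sq_mem (F : Fam θ β r q D u ka c N s e) {i : ℕ} (hi : InK n c N s e i) :
    sq q u i ∈ uI r := by
  obtain ⟨w, hw, ⟨a, ha, h1, h2⟩, rfl⟩ := win F hi
  have h3 : sqL (q ((w + c : ℕ) : ZMod n)) (u (w + c) - 1) ∈ ((uI r : Finset (ℤ × ℤ)) : Set _) := by
    rw [F.hK]
    exact ⟨a, ha, w, h1, h2, rfl⟩
  rw [sq_mod F] at h3
  exact mem_coe.1 h3

namespace Ctx

variable (F : Fam θ β r q D u ka c N s e) (C : Ctx r q D u ka c N s e B ω ℓ)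

include F C in
/-- **The next side.** -/
theorem step (hb : b ∈ bS (uI r)) (hbℓ : b ∈ ℓ) :
    (hdv b ∉ uI r ∧ hdv (nxt (bS (uI r)) ω b) ∈ uI r ∧ (Nr D (nxt (bS (uI r)) ω b) ↔ Nr D b)) ∨
    (hdv b ∈ uI r ∧ hdv (nxt (bS (uI r)) ω b) ∉ uI r ∧ hdv (nx ω b) ∈ uI r ∧
      tlv (nxt (bS (uI r)) ω b) = hdv (nx ω b) ∧ tlv (nx ω b) = hdv b ∧
      (ω (hdv (nx ω b)) = ω (hdv b) → (Nr D (nxt (bS (uI r)) ω b) ↔ Nr D b))) := by
  by_cases h : hdv b ∈ uI r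
  · right
    obtain ⟨i, j, A⟩ := C.entry hbℓ h (entry_of hb h)
    have h1 : hdv (nx ω b) ∈ uI r := by
      rw [A.hd1]; exact sq_mem F A.rj
    obtain ⟨h2, h3⟩ := arc_exit C.hl hb hbℓ A h1
    refine ⟨h, h2, h1, h3, tlv_nx ω b, fun hc => ?_⟩
    rw [arc_nxt A]
    have nN : ∀ {y : Ed} {k : ℕ}, IsN q y k → Nr D y := fun h => near_D F h
    have nF : ∀ {y : Ed} {k : ℕ}, InK n c N s e k → IsF q u y k → ¬ Nr D y := fun hk h h' => by
      obtain ⟨f1, f2⟩ := far_D F hk h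
      rcases h' with h' | h'
      · exact f1 h'
      · exact f2 h'
    rcases A.cs with ⟨⟨a1, a2⟩ | ⟨a1, a2⟩, -, -, -, -, a3, a4⟩ | ⟨⟨a1, a2⟩ | ⟨a1, a2⟩, -, -, -, -, a3, a4⟩
    · exact iff_of_true (nN (a3 (hc.trans a2))) (nN a1)
    · exact iff_of_false (nF A.rj (a4 (hc.trans a2))) (nF A.ri a1)
    · exact iff_of_true (nN (a3 (hc.trans a2))) (nN a1)
    · exact iff_of_false (nF A.rj (a4 (hc.trans a2))) (nF A.ri a1)
  · left
    have h1 := exit_of hb h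
    obtain ⟨hr, hc⟩ := C.exit F hbℓ h1 h
    have hlast := QX.exc_last h hr
    refine ⟨h, hlast.1, ?_⟩
    rcases hc with ⟨c1, i, j, E⟩ | ⟨c1, c2, i, j, σ, φ, E⟩
    · refine iff_of_true ?_ (Or.inl c1)
      have : nxt (bS (uI r)) ω b = be q (j : ZMod n) := E.e2
      rw [this]
      exact near_D F (i := j) rfl
    · refine iff_of_false ?_ ?_
      · intro h'
        obtain ⟨f1, f2⟩ := far_D F E.rj (x := nxt (bS (uI r)) ω b) E.P4j
        rcases h' with h' | h'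
        · exact f1 h'
        · exact f2 h'
      · intro h'
        obtain ⟨f1, f2⟩ := far_D F E.ri E.P4i
        rcases h' with h' | h'
        · exact f1 h'
        · exact f2 h'

include F C in
/-- **All sides are near or all are far.** -/
theorem type_const (hm : NoMix (uI r) ω ℓ) (hb0 : b0 ∈ bS (uI r)) (hb0ℓ : b0 ∈ ℓ)
    (hb : b ∈ bS (uI r)) (hbℓ : b ∈ ℓ) : Nr D b ↔ Nr D b0 := by
  refine nxt_induct C.hl (P := fun b => Nr D b ↔ Nr D b0) ?_ hb0 hb0ℓ Iff.rfl hb hbℓ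
  intro b hb hbℓ ih
  rcases C.step F hb hbℓ with ⟨-, -, h⟩ | ⟨h1, -, h2, -, h3, h⟩
  · exact h.trans ih
  · refine (h ?_).trans ih
    rw [hm _ (loop_nx C.hl hbℓ) h2 (by rw [h3]; exact h1), h3]

include F C in
/-- Every side is an entry or the next side of an entry. -/
theorem from_entry (hb : b ∈ bS (uI r)) (hbℓ : b ∈ ℓ) : hdv b ∈ uI r ∨
    ∃ b' ∈ bS (uI r), b' ∈ ℓ ∧ hdv b' ∈ uI r ∧ nxt (bS (uI r)) ω b' = b ∧ hdv b ∉ uI r ∧
      tlv b = hdv (nx ω b') ∧ hdv (nx ω b') ∈ uI r := by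
  classical
  by_cases h : hdv b ∈ uI r
  · exact Or.inl h
  · right
    have h1 := nxt_image (S := bS (uI r)) C.hl
    have h2 : b ∈ (bS (uI r)).filter (· ∈ ℓ) := mem_filter.2 ⟨hb, hbℓ⟩
    rw [← h1, mem_image] at h2
    obtain ⟨b', h3, h4⟩ := h2
    obtain ⟨h5, h6⟩ := mem_filter.1 h3
    rcases C.step F h5 h6 with ⟨-, h7, -⟩ | ⟨g1, g2, g3, g4, -⟩
    · rw [h4] at h7; exact absurd h7 h
    · rw [h4] at g4
      exact ⟨b', h5, h6, g1, h4, h, g4, g3⟩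

/-- The colour of the square of the rows at a side is the colour of an entry. -/
theorem col_of_entry (hm : NoMix (uI r) ω ℓ) (F : Fam θ β r q D u ka c N s e)
    (C : Ctx r q D u ka c N s e B ω ℓ) {τ : Bool}
    (h : ∀ b ∈ bS (uI r), b ∈ ℓ → hdv b ∈ uI r → ω (hdv b) = τ) (hb : b ∈ bS (uI r))
    (hbℓ : b ∈ ℓ) : ω (ksq (uI r) b) = τ := by
  rcases C.from_entry F hb hbℓ with h1 | ⟨b', h1, h2, h3, -, h4, h5, h6⟩
  · rw [ksq_in h1]; exact h b hb hbℓ h1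
  · rw [ksq_out h4, h5, hm _ (loop_nx C.hl h2) h6 (by rw [tlv_nx]; exact h3), tlv_nx]
    exact h b' h1 h2 h3

end Ctx

end Vale.Agent.P167.H680.S
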