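import Vale.Agent.P167.H680.S.Part
import Vale.Agent.P167.H398.T.TrF
import Vale.Agent.P167.H825.Jun.Main

/-!
# P167, general `q`, START (L2S (e)): lower bound of the product over the loops off the holes
-/

namespace Vale.Agent.P167.H680.S

open Finset
open Vale.Agent.P167.FK
open Vale.Agent.P167.BR
open Vale.Agent.P167.Top
open Vale.Agent.P167.H871
open Vale.Agent.P167.H871.Q
open Vale.Agent.P167.E6 (IsPolygon Encloses)
open Vale.Agent.P167.H199 (cang strand ret Returns loop_iter loop_nx mem_strand ret_min ret_le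
  cang_congr)
open Vale.Agent.P167.A (plane)
open Vale.Agent.P167.XDL (bS mem_bS exists_idx P4_be)
open Vale.Agent.P167.H680.T (uI rowC)
open Vale.Agent.P167.H825.Q (Row)
open Vale.Agent.P167.QX (VisL wS fLp TO card_out_in exists_strand_loop out_stays returns_loop
  fLp_congr ExtPot exc)
open Vale.Agent.P167.H685 (LE mem_LE loop_loc nx_loc)
open Vale.Agent.P167.H680.S.Ctx (Wr mem_Wr Xs mem_Xs noMix_not)
open Vale.Agent.P167.H825.Jun (mixE mem_mixE)

variable {ι : Type} [Fintype ι] {r : ι → Row} {θ β : ℝ} {x b b0 b' : Ed} {ω ω' : Cfg} {n : ℕ}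
  {q : ZMod n → ℤ × ℤ} {D : Finset (ℤ × ℤ)} {u : ℕ → ℤ} {ka c N : ℕ} {s e : ℕ → ℕ}
  {B : Set (ℤ × ℤ)} {ℓ ℓ' : Finset Ed}

open Classical in
/-- A lower bound for the weight of index two, if it is not zero. -/
noncomputable def m2 (θ : ℝ) : ℝ := if fW θ 2 = 0 then 1 else min 1 (fW θ 2)

theorem m2_pos (hθ : 0 < θ) (hθ' : θ ≤ Real.pi / 3) : 0 < m2 θ := by
  obtain ⟨h1, h2, h3, h4⟩ := sin_pos' hθ hθ'
  unfold m2
  split_ifs with h
  · exact one_pos
  · refine lt_min one_pos (lt_of_le_of_ne ?_ (Ne.symm h))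
    rw [fW_2]; positivity

theorem m2_le : m2 θ ≤ 1 := by
  unfold m2
  split_ifs
  · exact le_rfl
  · exact min_le_left _ _

theorem m2_le' (h : fW θ 2 ≠ 0) : m2 θ ≤ fW θ 2 := by
  unfold m2
  rw [if_neg h]
  exact min_le_right _ _

theorem two_cos (hθ : 0 < θ) (hθ' : θ ≤ Real.pi / 3) : 1 ≤ 2 * Real.cos θ := by
  have hp := Real.pi_pos
  have h := Real.cos_le_cos_of_nonneg_of_le_pi hθ.le (by linarith) hθ'
  rw [Real.cos_pi_div_three] at h
  linarith

/-- A far strand of index two. -/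
def T2 (K D : Finset (ℤ × ℤ)) (ω : Cfg) (b : Ed) (τ : Bool) : Prop :=
  ω (tlv b) = τ ∧ ω (hdv ((nx ω)^[ret (nx ω) (bS K) b] b)) = τ ∧
    ∃ φ, ExtPot (D ∪ K) (exc K ω b) (if τ = true then -1 else 1) φ

namespace Ctx

variable (F : Fam θ β r q D u ka c N s e) (C : Ctx r q D u ka c N s e B ω ℓ)

open Classical in
include F C in
/-- **The lower bound of the weight of an exit.** -/
theorem wS_low (hθ : 0 < θ) (hθ' : θ ≤ Real.pi / 3)
    (hβ : 0 < ka → ka < n → β = (θ - Real.pi) / 2 ∨ β = (Real.pi - 3 * θ) / 2)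
    (hb : b ∈ Xs (uI r) ℓ) (h0 : wS θ (uI r) (rowC θ r 0).ph ω b ≠ 0) :
    (if b ∈ mixE (uI r) D ω then 2 * Real.cos θ else 1) *
      (if ¬ Nr D b ∧ (T2 (uI r) D ω b false ∨ T2 (uI r) D ω b true) then m2 θ else 1) ≤
      wS θ (uI r) (rowC θ r 0).ph ω b := by
  obtain ⟨g1, g2, g3⟩ := mem_Xs.1 hb
  have h2 := exit_of g1 g2
  obtain ⟨p1, p2, p3, p4⟩ := sin_pos' hθ hθ'
  have hm := m2_pos hθ hθ'
  have hc1 := two_cos hθ hθ'
  obtain ⟨hr, hc⟩ := C.exit F g3 h2 g2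
  rcases hc with ⟨c1, i, j, E⟩ | ⟨c1, c2, i, j, σ, φ, E⟩
  · -- near
    have e1 : b ∉ mixE (uI r) D ω := fun h => (mem_mixE.1 h).2.2.1 c1
    rw [if_neg e1, if_neg (fun h => h.1 (Or.inl c1)), one_mul]
    unfold wS
    rw [F.cos_int E g2 hr]
    unfold wI
    split_ifs with k1 k2
    · rw [div_self p1.ne']
    · rw [Real.sin_two_mul, show 2 * Real.sin θ * Real.cos θ / Real.sin θ = 2 * Real.cos θ by
        field_simp]
      exact hc1
    · have hi := E.hi
      have hj := E.hj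
      rw [mixed_in (hβ (by omega) (by omega)), div_self p1.ne']
  · have hi := E.hi
    have hj := E.hj
    have hne := E.ne
    have k1 : ω (tlv b) = decide (¬ i < ka) := by
      rw [show tlv b = sq q u i from E.tl]; exact C.hcol i E.ri
    have k2 : ω (hdv ((nx ω)^[ret (nx ω) (bS (uI r)) b] b)) = decide (¬ j < ka) := by
      rw [show hdv ((nx ω)^[ret (nx ω) (bS (uI r)) b] b) = sq q u j from E.hd]
      exact C.hcol j E.rj
    have hw : wS θ (uI r) (rowC θ r 0).ph ω b = wE θ β ka i j σ / Real.sin θ := by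
      unfold wS
      rw [F.cos_far E g2 hr]
    by_cases h3 : (i < ka ↔ j < ka)
    · -- same colour
      have e1 : b ∉ mixE (uI r) D ω := fun h => by
        apply (mem_mixE.1 h).2.2.2.2.2
        show ω (tlv b) = ω (hdv ((nx ω)^[ret (nx ω) (bS (uI r)) b] b))
        rw [k1, k2, decide_eq_decide]; exact not_congr h3
      rw [if_neg e1, one_mul, hw, wE_fW p1.ne' E.pot.sgn h3]
      rw [hw, wE_fW p1.ne' E.pot.sgn h3] at h0
      have hle : ∀ (p : Prop) [Decidable p], (if p then m2 θ else 1) ≤ (1 : ℝ) := fun p _ => by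
        split_ifs
        · exact m2_le
        · exact le_rfl
      by_cases h4 : κE ka i j σ = 2
      · rw [h4] at h0 ⊢
        rw [if_pos]
        · exact m2_le' h0
        · refine ⟨fun h => ?_, ?_⟩
          · rcases h with h | h
            · exact c1 h
            · exact F.nin h2 h
          · unfold κE at h4
            by_cases h5 : i < ka
            · left
              have h6 : σ = 1 := by
                have := E.pot.sgn
                rw [if_pos h5] at h4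
                split_ifs at h4 <;> omega
              refine ⟨by rw [k1]; simp [h5], by rw [k2]; simp [h3.1 h5], φ, ?_⟩
              rw [if_neg (by simp), ← h6]
              exact E.pot
            · right
              have h6 : σ = -1 := by
                have := E.pot.sgn
                rw [if_neg h5] at h4
                split_ifs at h4 <;> omega
              have h7 : ¬ j < ka := fun h => h5 (h3.2 h)
              refine ⟨by rw [k1]; simp only [h5]; simp, by rw [k2]; simp only [h7]; simp, φ, ?_⟩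
              rw [if_pos rfl, ← h6]
              exact E.pot
      · refine (hle _).trans ?_
        have h5 : κE ka i j σ = -1 ∨ κE ka i j σ = 0 ∨ κE ka i j σ = 1 := by
          have h6 := E.pot.sgn
          revert h4
          unfold κE
          rcases h6 with rfl | rfl <;> split_ifs <;> simp
        rcases h5 with h5 | h5 | h5
        · rw [h5, fW_m1] at h0
          exact absurd rfl h0
        · rw [h5, fW_0 p1.ne']
        · rw [h5, fW_1 p1.ne']
          exact hc1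
    · have hka : 0 < ka ∧ ka < n := by omega
      have e1 : b ∈ mixE (uI r) D ω := by
        refine mem_mixE.2 ⟨g1, g2, c1, hr, c2, ?_⟩
        show ω (tlv b) ≠ ω (hdv ((nx ω)^[ret (nx ω) (bS (uI r)) b] b))
        rw [k1, k2]
        intro h
        rw [decide_eq_decide] at h
        exact h3 (not_iff_not.1 h)
      have e2 : ¬ (¬ Nr D b ∧ (T2 (uI r) D ω b false ∨ T2 (uI r) D ω b true)) := by
        rintro ⟨-, h | h⟩
        · exact (mem_mixE.1 e1).2.2.2.2.2 (h.1.trans h.2.1.symm)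
        · exact (mem_mixE.1 e1).2.2.2.2.2 (h.1.trans h.2.1.symm)
      rw [if_pos e1, if_neg e2, mul_one]
      have h4 : wS θ (uI r) (rowC θ r 0).ph ω b = 2 * Real.cos θ := by
        rw [hw]
        rw [hw] at h0
        have h5 : Real.sin (2 * θ) / Real.sin θ = 2 * Real.cos θ := by
          rw [Real.sin_two_mul]; field_simp
        unfold wE at h0 ⊢
        rw [if_neg (by tauto), if_neg (by omega)] at h0 ⊢
        rcases hβ hka.1 hka.2 with h | h
        · obtain ⟨m1, m2⟩ := mixed_one h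
          split_ifs at h0 ⊢ with h6
          · rw [m1, zero_div] at h0; exact absurd rfl h0
          · rw [m2, h5]
        · obtain ⟨m1, m2⟩ := mixed_two h
          split_ifs at h0 ⊢ with h6
          · rw [m1, h5]
          · rw [m2, zero_div] at h0; exact absurd rfl h0
      rw [h4]

end Ctx

section

variable (F : Fam θ β r q D u ka c N s e) (G : GC r q D u ka c N s e B ω)

open Classical in
include F G in
/-- **The interface.** -/
theorem mixed_low (hθ : 0 < θ) (hθ' : θ ≤ Real.pi / 3)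
    (hβ : 0 < ka → ka < n → β = (θ - Real.pi) / 2 ∨ β = (Real.pi - 3 * θ) / 2)
    (h : ℓ ∈ Lm (uI r) B ω) (h0 : fLp θ (uI r) (rowC θ r 0).ph ω ℓ ≠ 0)
    (hsub : mixE (uI r) D ω ⊆ Xs (uI r) ℓ) :
    m2 θ ^ 2 * (2 * Real.cos θ) ^ (mixE (uI r) D ω).card / (2 * Real.cos θ) ≤
      fLp θ (uI r) (rowC θ r 0).ph ω ℓ := by
  obtain ⟨h1, h2⟩ := mem_Lm.1 h
  obtain ⟨h3, h4, h5⟩ := mem_Lo.1 h1
  have C := G.ctx h3 h5
  have hm := m2_pos hθ hθ'
  have hc1 := two_cos hθ hθ'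
  rw [Ctx.fLp_Xs] at h0 ⊢
  have h6 : ∏ b ∈ Xs (uI r) ℓ, wS θ (uI r) (rowC θ r 0).ph ω b ≠ 0 := by
    intro h; rw [h, zero_div] at h0; exact h0 rfl
  rw [prod_ne_zero_iff] at h6
  have hz : ∃ z ∈ ℓ, hdv z ∈ uI r ∧ tlv z ∈ uI r := by
    unfold NoMix at h2
    push Not at h2
    obtain ⟨z, z1, z2, z3, -⟩ := h2
    exact ⟨z, z1, z2, z3⟩
  set T : Ed → Prop := fun b => ¬ Nr D b ∧ (T2 (uI r) D ω b false ∨ T2 (uI r) D ω b true) with hT
  have key : ∏ b ∈ Xs (uI r) ℓ, ((if b ∈ mixE (uI r) D ω then 2 * Real.cos θ else 1) *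
      (if T b then m2 θ else 1)) ≤ ∏ b ∈ Xs (uI r) ℓ, wS θ (uI r) (rowC θ r 0).ph ω b := by
    refine prod_le_prod (fun b _ => ?_) fun b hb => C.wS_low F hθ hθ' hβ hb (h6 b hb)
    refine mul_nonneg ?_ ?_
    · split_ifs <;> linarith
    · split_ifs <;> linarith
  rw [prod_mul_distrib, prod_ite_mem, inter_eq_right.2 hsub, prod_const, prod_ite,
    prod_const_one, mul_one, prod_const] at key
  -- at most two strands of index two
  have hcard : ((Xs (uI r) ℓ).filter T).card ≤ 2 := by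
    have one : ∀ τ : Bool, ((Xs (uI r) ℓ).filter fun b => ¬ Nr D b ∧ T2 (uI r) D ω b τ).card ≤ 1 := by
      intro τ
      rw [card_le_one]
      intro g hg g' hg'
      obtain ⟨a1, a2, a3, a4, φ, a5⟩ := mem_filter.1 hg
      obtain ⟨b1, b2, b3, b4, φ', b5⟩ := mem_filter.1 hg'
      obtain ⟨a6, a7, a8⟩ := mem_Xs.1 a1
      obtain ⟨b6, b7, b8⟩ := mem_Xs.1 b1
      exact H398.T.far_uniq F C.hA (fun z hz hzK => C.hcol z hzK) C.hB1 C.hB2 C.hl C.hv hz a8 b8 a7
        (exit_of a6 a7) (fun h => a2 (Or.inl h)) b7 (exit_of b6 b7) (fun h => b2 (Or.inl h))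
        (b := τ) rfl a3 a4 b3 b4 a5 b5
    have hsubT : (Xs (uI r) ℓ).filter T ⊆
        ((Xs (uI r) ℓ).filter fun b => ¬ Nr D b ∧ T2 (uI r) D ω b false) ∪
          ((Xs (uI r) ℓ).filter fun b => ¬ Nr D b ∧ T2 (uI r) D ω b true) := by
      intro b hb
      obtain ⟨c1, c2, c3⟩ := mem_filter.1 hb
      rw [mem_union, mem_filter, mem_filter]
      tauto
    exact (card_le_card hsubT).trans ((card_union_le _ _).trans
      (Nat.add_le_add (one false) (one true)))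
  have h7 : m2 θ ^ 2 ≤ m2 θ ^ ((Xs (uI r) ℓ).filter T).card :=
    pow_le_pow_of_le_one hm.le m2_le hcard
  have hpos : 0 < 2 * Real.cos θ := by linarith
  refine div_le_div_of_nonneg_right ?_ hpos.le
  refine le_trans ?_ key
  rw [mul_comm]
  exact mul_le_mul_of_nonneg_left h7 (pow_nonneg hpos.le _)

include F G in
/-- At most one far loop passes over the base point. -/
theorem far_wrap_unique (h : ℓ ∈ Lf (uI r) D B ω) (h' : ℓ' ∈ Lf (uI r) D B ω)
    (hb : b ∈ Wr q u c N s e (uI r) ω ℓ) (hb' : b' ∈ Wr q u c N s e (uI r) ω ℓ') : ℓ = ℓ' := by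
  obtain ⟨C, hS, hm, hN⟩ := far_all F G h
  obtain ⟨C', hS', hm', hN'⟩ := far_all F G h'
  obtain ⟨τ, hτ⟩ := C.col_far F hm hN hS
  obtain ⟨τ', hτ'⟩ := C'.col_far F hm' hN' hS'
  have e1 := (C.wrap_col F hm hτ hb).1
  have e2 := (C'.wrap_col F hm' hτ' hb').1
  have w1 := C.wrap_far F hτ hb (hN b (mem_Wr.1 hb).1 (mem_Wr.1 hb).2.2.1)
  have w2 := C'.wrap_far F hτ' hb' (hN' b' (mem_Wr.1 hb').1 (mem_Wr.1 hb').2.2.1)
  rw [e1] at w1
  rw [e2] at w2
  have e3 : b = b' := P4_inj (w1.trans w2.symm)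
  subst e3
  exact IsLoop.eq_of_mem C.hl C'.hl (mem_Wr.1 hb).2.2.1 (mem_Wr.1 hb').2.2.1

include F G in
/-- **The far product**, lower bound. -/
theorem prod_Lf_low (hθ : 0 < θ) (hθ' : θ ≤ Real.pi / 3)
    (h0 : ∏ ℓ ∈ Lf (uI r) D B ω, fLp θ (uI r) (rowC θ r 0).ph ω ℓ ≠ 0) :
    m2 θ / (2 * Real.cos θ) ≤ ∏ ℓ ∈ Lf (uI r) D B ω, fLp θ (uI r) (rowC θ r 0).ph ω ℓ := by
  obtain ⟨p1, p2, p3, p4⟩ := sin_pos' hθ hθ'
  have hm := m2_pos hθ hθ'
  have hm1 : m2 θ ≤ 1 := m2_le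
  have hc1 := two_cos hθ hθ'
  have hpos : 0 < 2 * Real.cos θ := by linarith
  rw [prod_ne_zero_iff] at h0
  have hval : ∀ ℓ ∈ Lf (uI r) D B ω, (Wr q u c N s e (uI r) ω ℓ).card = 0 →
      fLp θ (uI r) (rowC θ r 0).ph ω ℓ = 1 := by
    intro ℓ h hw
    obtain ⟨C, hS, hm, hN⟩ := far_all F G h
    rcases (C.fLp_far F hm hN p1.ne' p4.ne' hS).2 with h1 | ⟨-, h1⟩ | ⟨h1, -⟩
    · exact absurd h1 (h0 ℓ h)
    · exact h1
    · omega
  have hle : m2 θ / (2 * Real.cos θ) ≤ 1 := (div_le_one hpos).2 (by linarith)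
  by_cases hex : ∃ ℓ ∈ Lf (uI r) D B ω, ∃ b, b ∈ Wr q u c N s e (uI r) ω ℓ
  · obtain ⟨ℓ0, g0, b0, hb0⟩ := hex
    rw [prod_eq_single_of_mem ℓ0 g0]
    · obtain ⟨C, hS, hm, hN⟩ := far_all F G g0
      rcases (C.fLp_far F hm hN p1.ne' p4.ne' hS).2 with h1 | ⟨-, h1⟩ | ⟨-, h1 | h1 | h1⟩
      · exact absurd h1 (h0 ℓ0 g0)
      · rw [h1]; exact hle
      · rw [h1]; exact div_le_div_of_nonneg_right hm1 hpos.le
      · rw [h1]; exact hle.trans hc1
      · rw [h1]
        refine div_le_div_of_nonneg_right (m2_le' fun h2 => ?_) hpos.le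
        have h3 := h0 ℓ0 g0
        rw [h1, h2, zero_div] at h3
        exact h3 rfl
    · intro ℓ h hne
      refine hval ℓ h ?_
      rw [card_eq_zero, eq_empty_iff_forall_notMem]
      exact fun b hb => hne (far_wrap_unique F G h g0 hb hb0)
  · rw [prod_eq_one]
    · exact hle
    · intro ℓ h
      refine hval ℓ h ?_
      rw [card_eq_zero, eq_empty_iff_forall_notMem]
      exact fun b hb => hex ⟨ℓ, h, b, hb⟩

/-- The constant of the lower bound. -/
noncomputable def cTO (θ : ℝ) : ℝ := m2 θ ^ 3 / (2 * Real.cos θ) ^ 3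

theorem cTO_pos (hθ : 0 < θ) (hθ' : θ ≤ Real.pi / 3) : 0 < cTO θ := by
  have hm := m2_pos hθ hθ'
  have hc1 := two_cos hθ hθ'
  unfold cTO
  positivity

include F G in
/-- **(L2S (e))** The lower bound of the product over the loops off the holes. -/
theorem TO_low (hθ : 0 < θ) (hθ' : θ ≤ Real.pi / 3)
    (hβ : 0 < ka → ka < n → β = (θ - Real.pi) / 2 ∨ β = (Real.pi - 3 * θ) / 2)
    (hmx : ∀ b ∈ mixE (uI r) D ω, ∀ ℓ, IsLoop ω ℓ → b ∈ ℓ → ¬ VisL B ℓ)
    (h0 : TO θ (uI r) (rowC θ r 0).ph B ω ≠ 0) :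
    cTO θ * (2 * Real.cos θ) ^ (mixE (uI r) D ω).card ≤ TO θ (uI r) (rowC θ r 0).ph B ω := by
  classical
  obtain ⟨p1, p2, p3, p4⟩ := sin_pos' hθ hθ'
  have hm := m2_pos hθ hθ'
  have hm1 : m2 θ ≤ 1 := m2_le
  have hc1 := two_cos hθ hθ'
  have hpos : 0 < 2 * Real.cos θ := by linarith
  rw [TO_split _ D] at h0 ⊢
  have n1 : ∏ ℓ ∈ Lf (uI r) D B ω, fLp θ (uI r) (rowC θ r 0).ph ω ℓ ≠ 0 := by
    intro h; rw [h, mul_zero, zero_mul] at h0; exact h0 rfl
  have n2 : ∏ ℓ ∈ Lm (uI r) B ω, fLp θ (uI r) (rowC θ r 0).ph ω ℓ ≠ 0 := by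
    intro h; rw [h, mul_zero] at h0; exact h0 rfl
  have l1 := prod_Lf_low F G hθ hθ' n1
  have l2 : 1 / (2 * Real.cos θ) ≤ ∏ ℓ ∈ Ln (uI r) D B ω, fLp θ (uI r) (rowC θ r 0).ph ω ℓ := by
    rw [prod_Ln F G p1.ne' p4.ne']
    split_ifs
    · exact le_rfl
    · exact (div_le_one hpos).2 hc1
  -- the loop of a mixed strand
  have hmix : ∀ b ∈ mixE (uI r) D ω, ∃ ℓ ∈ Lm (uI r) B ω, b ∈ Xs (uI r) ℓ := by
    intro b hb
    obtain ⟨ℓ, hl, hbℓ⟩ := G.hg b
    have hv := hmx b hb ℓ hl hbℓ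
    obtain ⟨g1, g2, g3, g4, g5, g6⟩ := mem_mixE.1 hb
    have C := G.ctx hl hv
    have hS : ∃ b ∈ bS (uI r), b ∈ ℓ := ⟨b, g1, hbℓ⟩
    refine ⟨ℓ, mem_Lm.2 ⟨mem_Lo.2 ⟨hl, hS, hv⟩, fun hno => ?_⟩, mem_Xs.2 ⟨g1, g2, hbℓ⟩⟩
    have hf : ¬ Nr D b := by
      rintro (h | h)
      · exact g3 h
      · exact F.nin (exit_of g1 g2) h
    have hN : ∀ b ∈ bS (uI r), b ∈ ℓ → ¬ Nr D b := fun b' e1 e2 => by
      rw [C.type_const F hno g1 hbℓ e1 e2]; exact hf
    obtain ⟨τ, hτ⟩ := C.col_far F hno hN hS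
    obtain ⟨e1, e2⟩ := nxt_mem C.hl g1 hbℓ
    have e3 := hτ b g1 hbℓ
    have e4 := hτ _ e1 e2
    have e5 := (QX.exc_last g2 g4).1
    rw [ksq_out g2] at e3
    have e6 : ksq (uI r) (nxt (bS (uI r)) ω b) =
        hdv ((nx ω)^[ret (nx ω) (bS (uI r)) b] b) := ksq_in e5
    rw [e6] at e4
    exact g6 (e3.trans e4.symm)
  have l3 : m2 θ ^ 2 * (2 * Real.cos θ) ^ (mixE (uI r) D ω).card / (2 * Real.cos θ) ≤
      ∏ ℓ ∈ Lm (uI r) B ω, fLp θ (uI r) (rowC θ r 0).ph ω ℓ := by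
    rcases (Lm (uI r) B ω).eq_empty_or_nonempty with h1 | ⟨ℓ, hℓ⟩
    · have h2 : mixE (uI r) D ω = ∅ := by
        rw [eq_empty_iff_forall_notMem]
        intro b hb
        obtain ⟨ℓ, h3, -⟩ := hmix b hb
        rw [h1] at h3
        exact absurd h3 (notMem_empty _)
      rw [h1, h2, prod_empty, card_empty, pow_zero, mul_one]
      refine (div_le_one hpos).2 (le_trans ?_ hc1)
      exact pow_le_one₀ hm.le hm1
    · have huniq : ∀ ℓ1 ∈ Lm (uI r) B ω, ℓ1 = ℓ := by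
        have hC : ∀ ℓ ∈ Lm (uI r) B ω, Ctx r q D u ka c N s e B ω ℓ ∧
            ∃ b ∈ ℓ, MixE (uI r) ω b := by
          intro ℓ h
          obtain ⟨h1, h2⟩ := mem_Lm.1 h
          obtain ⟨h3, h4, h5⟩ := mem_Lo.1 h1
          have C := G.ctx h3 h5
          refine ⟨C, ?_⟩
          by_contra hno
          push Not at hno
          exact h2 (C.noMix_of F h4 hno)
        intro ℓ1 h1
        obtain ⟨C1, b1, g1, g2⟩ := hC ℓ1 h1
        obtain ⟨C2, b2, g3, g4⟩ := hC ℓ hℓ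
        exact mix_unique F C1 C2 g1 g2 g3 g4
      have h2 : Lm (uI r) B ω = {ℓ} := eq_singleton_iff_unique_mem.2 ⟨hℓ, huniq⟩
      rw [h2, prod_singleton] at n2 ⊢
      refine mixed_low F G hθ hθ' hβ hℓ n2 fun b hb => ?_
      obtain ⟨ℓ1, h3, h4⟩ := hmix b hb
      rw [← huniq ℓ1 h3]
      exact h4
  have k1 : 1 / (2 * Real.cos θ) * (m2 θ / (2 * Real.cos θ)) ≤
      (∏ ℓ ∈ Ln (uI r) D B ω, fLp θ (uI r) (rowC θ r 0).ph ω ℓ) *
        ∏ ℓ ∈ Lf (uI r) D B ω, fLp θ (uI r) (rowC θ r 0).ph ω ℓ :=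
    mul_le_mul l2 l1 (by positivity) (le_trans (by positivity) l2)
  have k2 := mul_le_mul k1 l3 (by positivity) (le_trans (by positivity) k1)
  refine le_trans (le_of_eq ?_) k2
  unfold cTO
  field_simp

end

end Vale.Agent.P167.H680.S
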