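import Vale.Agent.P167.H680.S.FarL

/-!
# P167, general `q`, START (L2S): mixed arcs and the interface

`MixE`: an entry whose arc crosses a lateral side between squares of different colours. Such arcs lead
from a near side to a far side at the junction, and from a far side to a near side at the base point.
-/

namespace Vale.Agent.P167.H680.S

open Finset
open Vale.Agent.P167.FK
open Vale.Agent.P167.BR
open Vale.Agent.P167.Top
open Vale.Agent.P167.H871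
open Vale.Agent.P167.H871.Q
open Vale.Agent.P167.E6 (IsPolygon Encloses)
open Vale.Agent.P167.H199 (strand ret Returns loop_iter loop_nx mem_strand ret_min)
open Vale.Agent.P167.XDL (bS mem_bS exists_idx P4_be)
open Vale.Agent.P167.H680.T (uI rowC)
open Vale.Agent.P167.H825.Q (Row)
open Vale.Agent.P167.QX (VisL wS fLp card_out_in exists_strand_loop out_stays)

variable {ι : Type} [Fintype ι] {r : ι → Row} {θ β : ℝ} {x b b0 b' : Ed} {ω ω' : Cfg} {n : ℕ}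
  {q : ZMod n → ℤ × ℤ} {D : Finset (ℤ × ℤ)} {u : ℕ → ℤ} {ka c N : ℕ} {s e : ℕ → ℕ}
  {B : Set (ℤ × ℤ)} {ℓ ℓ' : Finset Ed}

/-- An entry with a mixed arc. -/
def MixE (K : Finset (ℤ × ℤ)) (ω : Cfg) (b : Ed) : Prop :=
  b ∈ bS K ∧ hdv b ∈ K ∧ hdv (nx ω b) ∈ K ∧ ω (hdv (nx ω b)) ≠ ω (hdv b)

/-- The near mixed entry. -/
def MN (q : ZMod n → ℤ × ℤ) (ka : ℕ) (b : Ed) : Prop :=
  (IsN q b (ka - 1) ∧ Even ((q (ka : ZMod n)).1 + (q (ka : ZMod n)).2)) ∨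
    (IsN q b ka ∧ ¬ Even ((q (ka : ZMod n)).1 + (q (ka : ZMod n)).2))

/-- The far mixed entry. -/
def MF (q : ZMod n → ℤ × ℤ) (u : ℕ → ℤ) (b : Ed) : Prop :=
  (IsF q u b (n - 1) ∧ Even ((q ((0 : ℕ) : ZMod n)).1 + (q ((0 : ℕ) : ZMod n)).2)) ∨
    (IsF q u b 0 ∧ ¬ Even ((q ((0 : ℕ) : ZMod n)).1 + (q ((0 : ℕ) : ZMod n)).2))

theorem MN_unique (h : MN q ka b) (h' : MN q ka b') : b = b' := by
  rcases h with ⟨h1, h2⟩ | ⟨h1, h2⟩ <;> rcases h' with ⟨h3, h4⟩ | ⟨h3, h4⟩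
  · exact h1.trans h3.symm
  · exact absurd h2 h4
  · exact absurd h4 h2
  · exact h1.trans h3.symm

theorem MF_unique (h : MF q u b) (h' : MF q u b') : b = b' := by
  rcases h with ⟨h1, h2⟩ | ⟨h1, h2⟩ <;> rcases h' with ⟨h3, h4⟩ | ⟨h3, h4⟩
  · exact P4_inj (h1.trans h3.symm)
  · exact absurd h2 h4
  · exact absurd h4 h2
  · exact P4_inj (h1.trans h3.symm)

namespace Ctx

variable (F : Fam θ β r q D u ka c N s e) (C : Ctx r q D u ka c N s e B ω ℓ)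

include F in
theorem far_not {y : Ed} {k : ℕ} (hk : InK n c N s e k) (h : IsF q u y k) : ¬ Nr D y := by
  intro h'
  obtain ⟨f1, f2⟩ := far_D F hk h
  rcases h' with h' | h'
  · exact f1 h'
  · exact f2 h'

include F C in
/-- **The mixed arcs.** -/
theorem mix_cases (hbℓ : b ∈ ℓ) (hm : MixE (uI r) ω b) : (0 < ka ∧ ka < n) ∧
    ((Nr D b ∧ ¬ Nr D (nxt (bS (uI r)) ω b) ∧ MN q ka b) ∨
      (¬ Nr D b ∧ Nr D (nxt (bS (uI r)) ω b) ∧ MF q u b)) := by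
  obtain ⟨hb, h1, h2, h3⟩ := hm
  obtain ⟨i, j, A⟩ := C.entry hbℓ h1 (entry_of hb h1)
  have hn := n_pos F
  have c1 : ω (hdv b) = decide (¬ i < ka) := by
    rw [show hdv b = sq q u i from A.hd]; exact C.hcol i A.ri
  have c2 : ω (hdv (nx ω b)) = decide (¬ j < ka) := by
    rw [show hdv (nx ω b) = sq q u j from A.hd1]; exact C.hcol j A.rj
  have hi := A.hi
  have hj := A.hj
  have hne : ¬ (i < ka ↔ j < ka) := by
    intro h
    apply h3
    rw [c1, c2, decide_eq_decide]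
    exact not_congr h.symm
  have e1 := FK.even_ls (nx ω b)
  have e2 := BR.odd_rs (nx ω b)
  rw [arc_nxt A]
  rcases A.cs with ⟨a0, a3, -, a4, a5, a6, a7⟩ | ⟨a0, a3, -, a4, a5, a6, a7⟩
  · rw [a4] at e1
    rcases Nat.lt_or_ge (i + 1) n with h5 | h5
    · -- at the junction
      rw [Nat.mod_eq_of_lt h5] at a3
      have h6 : j = ka ∧ i = ka - 1 ∧ 0 < ka := by omega
      obtain ⟨rfl, rfl, h7⟩ := h6
      have c3 : ω (hdv b) = false := by rw [c1]; simp [h7]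
      have c4 : ω (hdv (nx ω b)) = true := by rw [c2]; simp
      refine ⟨⟨h7, hj⟩, Or.inl ?_⟩
      rcases a0 with ⟨a1, -⟩ | ⟨-, a2⟩
      · exact ⟨near_D F a1, far_not F A.rj (a7 c4), Or.inl ⟨a1, e1⟩⟩
      · rw [c3] at a2; exact absurd a2 (by simp)
    · have h6 : i + 1 = n := by omega
      rw [h6, Nat.mod_self] at a3
      subst a3
      have h7 : 0 < ka ∧ ¬ i < ka := by omega
      have c3 : ω (hdv b) = true := by rw [c1]; simp only [h7.2]; simp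
      have c4 : ω (hdv (nx ω b)) = false := by rw [c2]; simp [h7.1]
      refine ⟨⟨h7.1, by omega⟩, Or.inr ?_⟩
      rcases a0 with ⟨-, a2⟩ | ⟨a1, -⟩
      · rw [c3] at a2; exact absurd a2 (by simp)
      · refine ⟨far_not F A.ri a1, near_D F (a6 c4), Or.inl ⟨?_, e1⟩⟩
        rw [show n - 1 = i by omega]; exact a1
  · rw [a4] at e2
    rcases Nat.lt_or_ge (j + 1) n with h5 | h5
    · rw [Nat.mod_eq_of_lt h5] at a3
      have h6 : i = ka ∧ j = ka - 1 ∧ 0 < ka := by omega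
      obtain ⟨rfl, rfl, h7⟩ := h6
      have c3 : ω (hdv b) = true := by rw [c1]; simp
      have c4 : ω (hdv (nx ω b)) = false := by rw [c2]; simp [h7]
      refine ⟨⟨h7, hi⟩, Or.inl ?_⟩
      rcases a0 with ⟨a1, -⟩ | ⟨-, a2⟩
      · exact ⟨near_D F a1, far_not F A.rj (a7 c4), Or.inr ⟨a1, e2⟩⟩
      · rw [c3] at a2; exact absurd a2 (by simp)
    · have h6 : j + 1 = n := by omega
      rw [h6, Nat.mod_self] at a3
      subst a3
      have h7 : 0 < ka ∧ ¬ j < ka := by omega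
      have c3 : ω (hdv b) = false := by rw [c1]; simp [h7.1]
      have c4 : ω (hdv (nx ω b)) = true := by rw [c2]; simp only [h7.2]; simp
      refine ⟨⟨h7.1, by omega⟩, Or.inr ?_⟩
      rcases a0 with ⟨-, a2⟩ | ⟨a1, -⟩
      · rw [c3] at a2; exact absurd a2 (by simp)
      · exact ⟨far_not F A.ri a1, near_D F (a6 c4), Or.inr ⟨a1, e2⟩⟩

include F C in
/-- The lateral edges of the loop are the successors of the entries. -/
theorem lat (hS : ∃ b ∈ bS (uI r), b ∈ ℓ) (hx : x ∈ ℓ) (h1 : hdv x ∈ uI r) (h2 : tlv x ∈ uI r) :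
    ∃ b ∈ bS (uI r), b ∈ ℓ ∧ hdv b ∈ uI r ∧ nx ω b = x := by
  obtain ⟨b, hb, hxb⟩ := exists_strand_loop C.hl hS hx
  obtain ⟨hb1, hb2⟩ := mem_filter.1 hb
  obtain ⟨k, hk, rfl⟩ := mem_strand.1 hxb
  by_cases h : hdv b ∈ uI r
  · obtain ⟨i, j, A⟩ := C.entry hb2 h (entry_of hb1 h)
    rw [A.ret] at hk
    rcases (by omega : k = 0 ∨ k = 1) with rfl | rfl
    · exact absurd h2 (entry_of hb1 h)
    · exact ⟨b, hb1, hb2, h, rfl⟩
  · exact absurd h1 (out_stays h hk)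

include F C in
theorem noMix_of (hS : ∃ b ∈ bS (uI r), b ∈ ℓ) (h : ∀ b ∈ ℓ, ¬ MixE (uI r) ω b) :
    NoMix (uI r) ω ℓ := by
  intro z hz h1 h2
  obtain ⟨b, b1, b2, b3, rfl⟩ := C.lat F hS hz h1 h2
  by_contra h4
  rw [tlv_nx] at h4
  exact h b b2 ⟨b1, b3, h1, h4⟩

omit [Fintype ι] in
theorem noMix_not (hl : IsLoop ω ℓ) {K : Finset (ℤ × ℤ)} (h : NoMix K ω ℓ) (hbℓ : b ∈ ℓ) :
    ¬ MixE K ω b := by
  rintro ⟨h1, h2, h3, h4⟩
  apply h4
  rw [h _ (loop_nx hl hbℓ) h3 (by rw [tlv_nx]; exact h2), tlv_nx]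

include F C in
/-- **A loop with a mixed arc contains both mixed arcs.** -/
theorem mix_both (hbℓ : b ∈ ℓ) (hm : MixE (uI r) ω b) :
    (∃ b1 ∈ ℓ, MixE (uI r) ω b1 ∧ Nr D b1 ∧ MN q ka b1) ∧
      (∃ b2 ∈ ℓ, MixE (uI r) ω b2 ∧ ¬ Nr D b2 ∧ MF q u b2) := by
  have hb := hm.1
  obtain ⟨n1, n2⟩ := nxt_mem C.hl hb hbℓ
  have hstep : ∀ b, b ∈ bS (uI r) → b ∈ ℓ → ¬ MixE (uI r) ω b →
      (Nr D (nxt (bS (uI r)) ω b) ↔ Nr D b) := by
    intro b hb hbℓ hnm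
    rcases C.step F hb hbℓ with ⟨-, -, h⟩ | ⟨h1, -, h2, -, -, h⟩
    · exact h
    · refine h ?_
      by_contra h3
      exact hnm ⟨hb, h1, h2, h3⟩
  rcases (C.mix_cases F hbℓ hm).2 with ⟨h1, h2, h3⟩ | ⟨h1, h2, h3⟩
  · refine ⟨⟨b, hbℓ, hm, h1, h3⟩, ?_⟩
    by_contra hno
    have key := nxt_induct (S := bS (uI r)) C.hl (P := fun b => ¬ Nr D b) (fun b g1 g2 g3 => by
      beta_reduce at g3 ⊢
      by_cases g4 : MixE (uI r) ω b
      · rcases (C.mix_cases F g2 g4).2 with ⟨g5, -⟩ | ⟨g5, g6, g7⟩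
        · exact absurd g5 g3
        · exact absurd ⟨b, g2, g4, g5, g7⟩ hno
      · rw [hstep b g1 g2 g4]; exact g3) n1 n2 h2 hb hbℓ
    exact key h1
  · refine ⟨?_, ⟨b, hbℓ, hm, h1, h3⟩⟩
    by_contra hno
    have key := nxt_induct (S := bS (uI r)) C.hl (P := fun b => Nr D b) (fun b g1 g2 g3 => by
      beta_reduce at g3 ⊢
      by_cases g4 : MixE (uI r) ω b
      · rcases (C.mix_cases F g2 g4).2 with ⟨g5, g6, g7⟩ | ⟨g5, -⟩
        · exact absurd ⟨b, g2, g4, g5, g7⟩ hno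
        · exact absurd g3 g5
      · rw [hstep b g1 g2 g4]; exact g3) n1 n2 h2 hb hbℓ
    exact h1 key

end Ctx

/-- **There is at most one loop with mixed arcs.** -/
theorem mix_unique (F : Fam θ β r q D u ka c N s e) (C : Ctx r q D u ka c N s e B ω ℓ)
    (C' : Ctx r q D u ka c N s e B ω ℓ') (hbℓ : b ∈ ℓ) (hm : MixE (uI r) ω b) (hbℓ' : b' ∈ ℓ')
    (hm' : MixE (uI r) ω b') : ℓ = ℓ' := by
  obtain ⟨⟨b1, h1, -, -, h2⟩, -⟩ := C.mix_both F hbℓ hm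
  obtain ⟨⟨b2, h3, -, -, h4⟩, -⟩ := C'.mix_both F hbℓ' hm'
  rw [MN_unique h4 h2] at h3
  exact IsLoop.eq_of_mem C.hl C'.hl h1 h3

end Vale.Agent.P167.H680.S
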