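import Vale.Agent.P167.H680.S.Mix
import Vale.Agent.P167.H398.T.TrN

/-!
# P167, general `q`, START (L2S (c)): the product over the loops off the holes

The loops off the holes are near loops, far loops and at most one loop with mixed arcs. The product
does not depend on the squares of the domain.
-/

namespace Vale.Agent.P167.H680.S

open Finset
open Vale.Agent.P167.FK
open Vale.Agent.P167.BR
open Vale.Agent.P167.Top
open Vale.Agent.P167.H871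
open Vale.Agent.P167.H871.Q
open Vale.Agent.P167.E6 (IsPolygon Encloses)
open Vale.Agent.P167.H199 (cang strand ret Returns loop_iter loop_nx mem_strand ret_min ret_le
  cang_congr)
open Vale.Agent.P167.A (plane)
open Vale.Agent.P167.XDL (bS mem_bS exists_idx P4_be)
open Vale.Agent.P167.H680.T (uI rowC)
open Vale.Agent.P167.H825.Q (Row)
open Vale.Agent.P167.QX (VisL wS fLp TO card_out_in exists_strand_loop out_stays returns_loop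
  fLp_congr)
open Vale.Agent.P167.H685 (LE mem_LE loop_loc nx_loc)
open Vale.Agent.P167.H680.S.Ctx (Wr mem_Wr Xs mem_Xs noMix_not)

variable {ι : Type} [Fintype ι] {r : ι → Row} {θ β : ℝ} {x b b0 b' : Ed} {ω ω' : Cfg} {n : ℕ}
  {q : ZMod n → ℤ × ℤ} {D : Finset (ℤ × ℤ)} {u : ℕ → ℤ} {ka c N : ℕ} {s e : ℕ → ℕ}
  {B : Set (ℤ × ℤ)} {ℓ ℓ' : Finset Ed}

/-- A configuration of the frame. -/
structure GC (r : ι → Row) {n : ℕ} (q : ZMod n → ℤ × ℤ) (D : Finset (ℤ × ℤ)) (u : ℕ → ℤ)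
    (ka c N : ℕ) (s e : ℕ → ℕ) (B : Set (ℤ × ℤ)) (ω : Cfg) : Prop where
  hg : Good ω
  hB1 : ∀ v ∈ endK q u c N s e, v ∈ B
  hB2 : ∀ y ∈ bS D, y ∉ bS (uI r) → hdv y ∈ B
  hcol : ∀ z, InK n c N s e z → ω (sq q u z) = decide (¬ z < ka)
  hA : ArcH r q u c N s e

theorem GC.ctx (G : GC r q D u ka c N s e B ω) (hl : IsLoop ω ℓ) (hv : ¬ VisL B ℓ) :
    Ctx r q D u ka c N s e B ω ℓ := ⟨G.hg, G.hB1, G.hB2, G.hcol, G.hA, hl, hv⟩

/-- All sides are near. -/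
def PN (K D : Finset (ℤ × ℤ)) (ℓ : Finset Ed) : Prop := ∀ b ∈ bS K, b ∈ ℓ → Nr D b

open Classical in
/-- The loops off the holes. -/
noncomputable def Lo (K : Finset (ℤ × ℤ)) (B : Set (ℤ × ℤ)) (ω : Cfg) : Finset (Finset Ed) :=
  (LE ω (bS K)).filter fun ℓ => ¬ VisL B ℓ

open Classical in
/-- The near loops. -/
noncomputable def Ln (K D : Finset (ℤ × ℤ)) (B : Set (ℤ × ℤ)) (ω : Cfg) : Finset (Finset Ed) :=
  ((Lo K B ω).filter (NoMix K ω)).filter (PN K D)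

open Classical in
/-- The far loops. -/
noncomputable def Lf (K D : Finset (ℤ × ℤ)) (B : Set (ℤ × ℤ)) (ω : Cfg) : Finset (Finset Ed) :=
  ((Lo K B ω).filter (NoMix K ω)).filter fun ℓ => ¬ PN K D ℓ

open Classical in
/-- The loops with mixed arcs. -/
noncomputable def Lm (K : Finset (ℤ × ℤ)) (B : Set (ℤ × ℤ)) (ω : Cfg) : Finset (Finset Ed) :=
  (Lo K B ω).filter fun ℓ => ¬ NoMix K ω ℓ

theorem mem_Lo {K : Finset (ℤ × ℤ)} : ℓ ∈ Lo K B ω ↔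
    IsLoop ω ℓ ∧ (∃ b ∈ bS K, b ∈ ℓ) ∧ ¬ VisL B ℓ := by
  classical
  unfold Lo
  rw [mem_filter, mem_LE, and_assoc]

theorem mem_Ln {K : Finset (ℤ × ℤ)} : ℓ ∈ Ln K D B ω ↔
    ℓ ∈ Lo K B ω ∧ NoMix K ω ℓ ∧ PN K D ℓ := by
  classical
  unfold Ln
  rw [mem_filter, mem_filter, and_assoc]

theorem mem_Lf {K : Finset (ℤ × ℤ)} : ℓ ∈ Lf K D B ω ↔
    ℓ ∈ Lo K B ω ∧ NoMix K ω ℓ ∧ ¬ PN K D ℓ := by
  classical
  unfold Lf
  rw [mem_filter, mem_filter, and_assoc]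

theorem mem_Lm {K : Finset (ℤ × ℤ)} : ℓ ∈ Lm K B ω ↔ ℓ ∈ Lo K B ω ∧ ¬ NoMix K ω ℓ := by
  classical
  unfold Lm
  rw [mem_filter]

/-- **The three types of loops.** -/
theorem TO_split (K D : Finset (ℤ × ℤ)) (a : Ed → Bool → ℝ) (B : Set (ℤ × ℤ)) (ω : Cfg) :
    TO θ K a B ω = (∏ ℓ ∈ Ln K D B ω, fLp θ K a ω ℓ) * (∏ ℓ ∈ Lf K D B ω, fLp θ K a ω ℓ) *
      ∏ ℓ ∈ Lm K B ω, fLp θ K a ω ℓ := by
  classical
  unfold Ln Lf Lm
  rw [prod_filter_mul_prod_filter_not, prod_filter_mul_prod_filter_not]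
  rfl

section

variable (F : Fam θ β r q D u ka c N s e) (G : GC r q D u ka c N s e B ω)

include F G in
theorem far_all (h : ℓ ∈ Lf (uI r) D B ω) : Ctx r q D u ka c N s e B ω ℓ ∧
    (∃ b ∈ bS (uI r), b ∈ ℓ) ∧ NoMix (uI r) ω ℓ ∧ ∀ b ∈ bS (uI r), b ∈ ℓ → ¬ Nr D b := by
  obtain ⟨h1, h2, h3⟩ := mem_Lf.1 h
  obtain ⟨h4, h5, h6⟩ := mem_Lo.1 h1
  have C := G.ctx h4 h6
  refine ⟨C, h5, h2, ?_⟩
  unfold PN at h3
  push Not at h3
  obtain ⟨b0, g1, g2, g3⟩ := h3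
  intro b hb hbℓ
  rw [C.type_const F h2 g1 g2 hb hbℓ]
  exact g3

include G in
theorem near_all (h : ℓ ∈ Ln (uI r) D B ω) : Ctx r q D u ka c N s e B ω ℓ ∧
    (∃ b ∈ bS (uI r), b ∈ ℓ) ∧ NoMix (uI r) ω ℓ ∧ ∀ b ∈ bS (uI r), b ∈ ℓ → Nr D b := by
  obtain ⟨h1, h2, h3⟩ := mem_Ln.1 h
  obtain ⟨h4, h5, h6⟩ := mem_Lo.1 h1
  exact ⟨G.ctx h4 h6, h5, h2, h3⟩

end

namespace Ctx

variable (F : Fam θ β r q D u ka c N s e) (C : Ctx r q D u ka c N s e B ω ℓ)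

include F C in
/-- The colour of a loop of one colour over the base point. -/
theorem wrap_col (hmix : NoMix (uI r) ω ℓ) {τ : Bool}
    (hτ : ∀ b ∈ bS (uI r), b ∈ ℓ → ω (ksq (uI r) b) = τ)
    (hb : b ∈ Wr q u c N s e (uI r) ω ℓ) : τ = decide (¬ 0 < ka) ∧ τ = decide (¬ n - 1 < ka) := by
  obtain ⟨h1, h2, h3, h4⟩ := mem_Wr.1 hb
  obtain ⟨i, j, A⟩ := C.entry h3 h2 (entry_of h1 h2)
  have i1 : idx q u c N s e (hdv b) = i := idx_of F A.ri A.hd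
  have i2 : idx q u c N s e (hdv (nx ω b)) = j := idx_of F A.rj A.hd1
  have c1 : ω (hdv b) = τ := by rw [← hτ b h1 h3, ksq_in h2]
  have g1 : hdv (nx ω b) ∈ uI r := by rw [A.hd1]; exact sq_mem F A.rj
  have c2 : ω (hdv (nx ω b)) = τ := by
    rw [hmix _ (loop_nx C.hl h3) g1 (by rw [tlv_nx]; exact h2), tlv_nx]
    exact c1
  have k1 : ω (hdv b) = decide (¬ i < ka) := by
    rw [show hdv b = sq q u i from A.hd]; exact C.hcol i A.ri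
  have k2 : ω (hdv (nx ω b)) = decide (¬ j < ka) := by
    rw [show hdv (nx ω b) = sq q u j from A.hd1]; exact C.hcol j A.rj
  rw [c1] at k1
  rw [c2] at k2
  unfold Wrap at h4
  rw [i1, i2] at h4
  rcases h4 with ⟨h5, h6⟩ | ⟨h5, h6⟩
  · rw [h6] at k2
    rw [show i = n - 1 by omega] at k1
    exact ⟨k2, k1⟩
  · rw [h5] at k1
    rw [show j = n - 1 by omega] at k2
    exact ⟨k1, k2⟩

include F C in
/-- The far sides of a loop do not see the domain. -/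
theorem iter_agree (hag : ∀ v, v ∉ D → v ∉ B → ω v = ω' v) (hb : b ∈ bS (uI r)) (hbℓ : b ∈ ℓ)
    (hN : ¬ Nr D b) {k : ℕ} (hk : k ≤ ret (nx ω) (bS (uI r)) b) :
    (nx ω')^[k] b = (nx ω)^[k] b := by
  induction k with
  | zero => rfl
  | succ k ih =>
    rw [Function.iterate_succ_apply', Function.iterate_succ_apply', ih (by omega)]
    refine (nx_loc (hag _ ?_ ?_)).symm
    · rw [C.no_cross hb hbℓ (by omega)]
      exact fun h => hN (Or.inl h)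
    · exact C.hd_off (loop_iter C.hl hbℓ k)

include F C in
theorem ret_agree (hag : ∀ v, v ∉ D → v ∉ B → ω v = ω' v) (hb : b ∈ bS (uI r)) (hbℓ : b ∈ ℓ)
    (hN : ¬ Nr D b) : ret (nx ω') (bS (uI r)) b = ret (nx ω) (bS (uI r)) b := by
  obtain ⟨h1, h2⟩ := (returns_loop C.hl hbℓ hb).spec
  have h3 := C.iter_agree F hag hb hbℓ hN le_rfl
  have h4 : (nx ω')^[ret (nx ω) (bS (uI r)) b] b ∈ bS (uI r) := by rw [h3]; exact h2
  have h5 := ret_le (f := nx ω') h1 h4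
  by_contra hne
  have hR : Returns (nx ω') (bS (uI r)) b := ⟨_, h1, h4⟩
  obtain ⟨h6, h7⟩ := hR.spec
  have h8 : ret (nx ω') (bS (uI r)) b < ret (nx ω) (bS (uI r)) b := by omega
  rw [C.iter_agree F hag hb hbℓ hN h8.le] at h7
  exact ret_min (f := nx ω) (by omega) h8 h7

include F C in
theorem wS_agree (hag : ∀ v, v ∉ D → v ∉ B → ω v = ω' v) (hb : b ∈ bS (uI r)) (hbℓ : b ∈ ℓ)
    (hN : ¬ Nr D b) (a : Ed → Bool → ℝ) : wS θ (uI r) a ω b = wS θ (uI r) a ω' b := by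
  have h1 := C.ret_agree F hag hb hbℓ hN
  have h2 : strand (nx ω) (bS (uI r)) b = strand (nx ω') (bS (uI r)) b := by
    ext y
    rw [mem_strand, mem_strand, h1]
    constructor
    · rintro ⟨k, hk, rfl⟩
      exact ⟨k, hk, C.iter_agree F hag hb hbℓ hN hk.le⟩
    · rintro ⟨k, hk, rfl⟩
      exact ⟨k, hk, (C.iter_agree F hag hb hbℓ hN hk.le).symm⟩
  unfold wS
  rw [← h2, cang_congr (fun y hy => ?_) θ]
  obtain ⟨k, hk, rfl⟩ := mem_strand.1 hy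
  refine hag _ ?_ (C.hd_off (loop_iter C.hl hbℓ k))
  rw [C.no_cross hb hbℓ hk]
  exact fun h => hN (Or.inl h)

/-- The far sides of the two interfaces are the same. -/
theorem far_same (F : Fam θ β r q D u ka c N s e) (C : Ctx r q D u ka c N s e B ω ℓ)
    (C' : Ctx r q D u ka c N s e B ω' ℓ') (hag : ∀ v, v ∉ D → v ∉ B → ω v = ω' v)
    {b1 b2 : Ed} (h1 : b1 ∈ ℓ) (m1 : MixE (uI r) ω b1) (h2 : b2 ∈ ℓ') (m2 : MixE (uI r) ω' b2)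
    (hb : b ∈ bS (uI r)) (hbℓ : b ∈ ℓ) (hN : ¬ Nr D b) : b ∈ ℓ' := by
  obtain ⟨⟨g1, k1, k2, k3, k4⟩, -⟩ := C.mix_both F h1 m1
  obtain ⟨-, ⟨g2, l1, l2, l3, l4⟩⟩ := C'.mix_both F h2 m2
  by_contra hno
  have key := nxt_induct (S := bS (uI r)) C.hl (P := fun b => ¬ Nr D b ∧ b ∉ ℓ')
    (fun b e1 e2 e3 => ?_) hb hbℓ ⟨hN, hno⟩ k2.1 k1
  · exact key.1 k3
  · obtain ⟨e3, e4⟩ := e3
    have hnm : ¬ MixE (uI r) ω b := by
      intro hm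
      rcases (C.mix_cases F e2 hm).2 with ⟨e5, -⟩ | ⟨-, -, e5⟩
      · exact e3 e5
      · rw [MF_unique e5 l4] at e4
        exact e4 l1
    constructor
    · rcases C.step F e1 e2 with ⟨-, -, h⟩ | ⟨f1, -, f2, -, -, h⟩
      · rw [h]; exact e3
      · rw [h ?_]
        · exact e3
        · by_contra f3
          exact hnm ⟨e1, f1, f2, f3⟩
    · intro e5
      apply e4
      have e6 := C.iter_agree F hag e1 e2 e3 le_rfl
      unfold nxt at e5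
      rw [← e6] at e5
      have key2 : ∀ k, (nx ω')^[k] b ∈ ℓ' → b ∈ ℓ' := by
        intro k
        induction k with
        | zero => exact id
        | succ k ih =>
          intro h
          rw [Function.iterate_succ_apply'] at h
          exact ih (C'.hl.nx_mem_iff.1 h)
      exact key2 _ e5

include F C in
/-- The near strands of a loop with mixed arcs have the weight one. -/
theorem near_one (hs : Real.sin θ ≠ 0)
    (hβ : 0 < ka → ka < n → Real.cos (θ / 2 + β) = Real.sin θ)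
    (hm : ¬ NoMix (uI r) ω ℓ) (hb : b ∈ bS (uI r)) (hbℓ : b ∈ ℓ)
    (h1 : hdv b ∉ uI r) (hN : Nr D b) : wS θ (uI r) (rowC θ r 0).ph ω b = 1 := by
  have h2 := exit_of hb h1
  obtain ⟨hr, hc⟩ := C.exit F hbℓ h2 h1
  unfold NoMix at hm
  push Not at hm
  obtain ⟨z, z1, z2, z3, z4⟩ := hm
  rcases hc with ⟨c1, i, j, E⟩ | ⟨c1, -⟩
  · unfold wS
    rw [F.cos_int E h1 hr]
    unfold wI
    have k1 : ω (tlv b) = decide (¬ i < ka) := by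
      rw [show tlv b = sq q u i from E.tl]; exact C.hcol i E.ri
    have k2 : ω (hdv ((nx ω)^[ret (nx ω) (bS (uI r)) b] b)) = decide (¬ j < ka) := by
      rw [show hdv ((nx ω)^[ret (nx ω) (bS (uI r)) b] b) = sq q u j from E.hd]
      exact C.hcol j E.rj
    have hi := E.hi
    have hj := E.hj
    have hne := E.ne
    by_cases h3 : (i < ka ↔ j < ka)
    · rw [if_pos h3]
      have h4 := H398.T.near_cl F C.hA (fun z hz hzK => C.hcol z hzK) C.hB1 C.hB2 C.hl C.hv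
        ⟨z, z1, z2, z3, z4⟩ hbℓ c1 h2 hi hj E.e1 E.e2 (by
          rw [k1, k2, decide_eq_decide]; exact not_congr h3)
      unfold H718.Cl at h4
      rw [if_pos (by omega), div_self hs]
    · rw [if_neg h3, hβ (by omega) (by omega), div_self hs]
  · rcases hN with h | h
    · exact absurd h c1
    · exact absurd h (F.nin h2)

end Ctx

/-- The special squares. -/
def Spc (q : ZMod n → ℤ × ℤ) (u : ℕ → ℤ) (ka : ℕ) (v : ℤ × ℤ) : Prop :=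
  v = sq q u 0 ∨ v = sq q u (n - 1) ∨ (0 < ka ∧ ka < n ∧ (v = sq q u ka ∨ v = sq q u (ka - 1)))

section

variable (F : Fam θ β r q D u ka c N s e) (G : GC r q D u ka c N s e B ω)
  (G' : GC r q D u ka c N s e B ω')

include F G G' in
theorem Lf_sub (hag : ∀ v, v ∉ D → v ∉ B → ω v = ω' v) (h : ℓ ∈ Lf (uI r) D B ω) :
    ℓ ∈ Lf (uI r) D B ω' ∧ ∀ v ∈ vs ℓ, ω v = ω' v := by
  obtain ⟨C, hS, hm, hN⟩ := far_all F G h
  obtain ⟨h1, h2, h3⟩ := mem_Lf.1 h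
  obtain ⟨h4, h5, h6⟩ := mem_Lo.1 h1
  have hvs : ∀ v ∈ vs ℓ, ω v = ω' v := by
    intro v hv
    unfold vs at hv
    obtain ⟨x, hx, rfl⟩ := mem_image.1 hv
    exact hag _ (C.far_out F hN hS hx) (C.hd_off hx)
  refine ⟨mem_Lf.2 ⟨mem_Lo.2 ⟨loop_loc h4 hvs, h5, h6⟩, ?_, h3⟩, hvs⟩
  intro z hz z1 z2
  rw [← hvs _ (mem_image_of_mem _ hz), ← hvs _ (tlv_mem h4 hz)]
  exact hm z hz z1 z2

include F G G' in
/-- **The far product.** -/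
theorem prod_Lf (hag : ∀ v, v ∉ D → v ∉ B → ω v = ω' v) (a : Ed → Bool → ℝ) :
    ∏ ℓ ∈ Lf (uI r) D B ω, fLp θ (uI r) a ω ℓ = ∏ ℓ ∈ Lf (uI r) D B ω', fLp θ (uI r) a ω' ℓ := by
  have hag' : ∀ v, v ∉ D → v ∉ B → ω' v = ω v := fun v h1 h2 => (hag v h1 h2).symm
  have hset : Lf (uI r) D B ω = Lf (uI r) D B ω' := by
    ext ℓ
    exact ⟨fun h => (Lf_sub F G G' hag h).1, fun h => (Lf_sub F G' G hag' h).1⟩
  rw [← hset]
  refine prod_congr rfl fun ℓ h => ?_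
  obtain ⟨h1, -⟩ := mem_Lf.1 h
  exact fLp_congr (mem_Lo.1 h1).1 (Lf_sub F G G' hag h).2

include F G in
/-- At most one near loop passes over the base point. -/
theorem near_wrap_unique (h : ℓ ∈ Ln (uI r) D B ω) (h' : ℓ' ∈ Ln (uI r) D B ω)
    (hb : b ∈ Wr q u c N s e (uI r) ω ℓ) (hb' : b' ∈ Wr q u c N s e (uI r) ω ℓ') : ℓ = ℓ' := by
  obtain ⟨C, hS, hm, hN⟩ := near_all G h
  obtain ⟨C', hS', hm', hN'⟩ := near_all G h'
  obtain ⟨τ, hτ⟩ := C.col_near F hm hN hS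
  obtain ⟨τ', hτ'⟩ := C'.col_near F hm' hN' hS'
  have e1 := (C.wrap_col F hm hτ hb).1
  have e2 := (C'.wrap_col F hm' hτ' hb').1
  have w1 := C.wrap_near F hτ hb (hN b (mem_Wr.1 hb).1 (mem_Wr.1 hb).2.2.1)
  have w2 := C'.wrap_near F hτ' hb' (hN' b' (mem_Wr.1 hb').1 (mem_Wr.1 hb').2.2.1)
  rw [e1] at w1
  rw [e2] at w2
  have e3 : b = b' := w1.trans w2.symm
  subst e3
  exact IsLoop.eq_of_mem C.hl C'.hl (mem_Wr.1 hb).2.2.1 (mem_Wr.1 hb').2.2.1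

open Classical in
include F G in
/-- **The near product.** -/
theorem prod_Ln (hs : Real.sin θ ≠ 0) (hc : Real.cos θ ≠ 0) :
    ∏ ℓ ∈ Ln (uI r) D B ω, fLp θ (uI r) (rowC θ r 0).ph ω ℓ =
      if ∃ ℓ ∈ Ln (uI r) D B ω, ∃ b, b ∈ Wr q u c N s e (uI r) ω ℓ then 1 / (2 * Real.cos θ)
      else 1 := by
  have hval : ∀ ℓ ∈ Ln (uI r) D B ω, fLp θ (uI r) (rowC θ r 0).ph ω ℓ =
      if (Wr q u c N s e (uI r) ω ℓ).card = 0 then 1 else 1 / (2 * Real.cos θ) := by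
    intro ℓ h
    obtain ⟨C, hS, hm, hN⟩ := near_all G h
    exact (C.fLp_near F hm hN hs hc hS).2
  by_cases hex : ∃ ℓ ∈ Ln (uI r) D B ω, ∃ b, b ∈ Wr q u c N s e (uI r) ω ℓ
  · rw [if_pos hex]
    obtain ⟨ℓ0, h0, b0, hb0⟩ := hex
    rw [prod_eq_single_of_mem ℓ0 h0]
    · rw [hval ℓ0 h0, if_neg]
      rw [card_eq_zero]
      exact ne_empty_of_mem hb0
    · intro ℓ h hne
      rw [hval ℓ h, if_pos]
      rw [card_eq_zero, eq_empty_iff_forall_notMem]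
      exact fun b hb => hne (near_wrap_unique F G h h0 hb hb0)
  · rw [if_neg hex]
    refine prod_eq_one fun ℓ h => ?_
    rw [hval ℓ h, if_pos]
    rw [card_eq_zero, eq_empty_iff_forall_notMem]
    exact fun b hb => hex ⟨ℓ, h, b, hb⟩

include F G G' in
theorem near_wrap_ex (hsp' : ∀ ℓ, IsLoop ω' ℓ → (∃ b ∈ ℓ, Spc q u ka (hdv b)) → ¬ VisL B ℓ)
    (h : ∃ ℓ ∈ Ln (uI r) D B ω, ∃ b, b ∈ Wr q u c N s e (uI r) ω ℓ) :
    ∃ ℓ ∈ Ln (uI r) D B ω', ∃ b, b ∈ Wr q u c N s e (uI r) ω' ℓ := by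
  obtain ⟨ℓ, h1, b, hb⟩ := h
  obtain ⟨C, hS, hm, hN⟩ := near_all G h1
  obtain ⟨τ, hτ⟩ := C.col_near F hm hN hS
  obtain ⟨e1, e2⟩ := C.wrap_col F hm hτ hb
  obtain ⟨b1, b2, b3, b4⟩ := mem_Wr.1 hb
  obtain ⟨i, j, A⟩ := C.entry b3 b2 (entry_of b1 b2)
  have i1 : idx q u c N s e (hdv b) = i := idx_of F A.ri A.hd
  have hi := A.hi
  have c1 : ω (hdv b) = ω' (hdv b) := by
    rw [show hdv b = sq q u i from A.hd, G.hcol i A.ri, G'.hcol i A.ri]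
  obtain ⟨ℓ', hl', hbℓ'⟩ := G'.hg b
  have hsq : Spc q u ka (hdv b) := by
    unfold Wrap at b4
    rw [i1] at b4
    rcases b4 with ⟨h5, -⟩ | ⟨h5, -⟩
    · exact Or.inr (Or.inl (by rw [show n - 1 = i by omega]; exact A.hd))
    · exact Or.inl (by rw [← h5]; exact A.hd)
  have hv' := hsp' ℓ' hl' ⟨b, hbℓ', hsq⟩
  have C' := G'.ctx hl' hv'
  have hS' : ∃ b ∈ bS (uI r), b ∈ ℓ' := ⟨b, b1, hbℓ'⟩
  -- not Dobrushin
  have hnd : ¬ (0 < ka ∧ ka < n) := by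
    rintro ⟨h5, h6⟩
    rw [e1, decide_eq_decide] at e2
    omega
  have hm' : NoMix (uI r) ω' ℓ' := C'.noMix_of F hS' fun b hb hmx =>
    hnd (C'.mix_cases F hb hmx).1
  have hN' : ∀ b ∈ bS (uI r), b ∈ ℓ' → Nr D b := fun b' g1 g2 =>
    (C'.type_const F hm' b1 hbℓ' g1 g2).2 (hN b b1 b3)
  refine ⟨ℓ', mem_Ln.2 ⟨mem_Lo.2 ⟨hl', hS', hv'⟩, hm', hN'⟩, b, mem_Wr.2 ⟨b1, b2, hbℓ', ?_⟩⟩
  unfold Wrap at b4 ⊢
  rw [← nx_loc c1]
  exact b4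

include F G G' in
theorem Lm_ex (hsp' : ∀ ℓ, IsLoop ω' ℓ → (∃ b ∈ ℓ, Spc q u ka (hdv b)) → ¬ VisL B ℓ)
    (h : ℓ ∈ Lm (uI r) B ω) : ∃ ℓ' ∈ Lm (uI r) B ω', ∃ b, b ∈ ℓ ∧ b ∈ ℓ' ∧ MixE (uI r) ω b ∧
      MixE (uI r) ω' b := by
  obtain ⟨h1, h2⟩ := mem_Lm.1 h
  obtain ⟨h3, h4, h5⟩ := mem_Lo.1 h1
  have C := G.ctx h3 h5
  have h6 : ∃ b ∈ ℓ, MixE (uI r) ω b := by
    by_contra hno
    push Not at hno
    exact h2 (C.noMix_of F h4 hno)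
  obtain ⟨b0, g1, g2⟩ := h6
  obtain ⟨⟨b, k1, k2, k3, k4⟩, -⟩ := C.mix_both F g1 g2
  have hdb := (C.mix_cases F k1 k2).1
  obtain ⟨i, j, A⟩ := C.entry k1 k2.2.1 (entry_of k2.1 k2.2.1)
  have cK : ∀ v ∈ uI r, (∃ i, InK n c N s e i ∧ v = sq q u i) → ω v = ω' v := by
    rintro v - ⟨i, hi, rfl⟩
    rw [G.hcol i hi, G'.hcol i hi]
  have c1 : ω (hdv b) = ω' (hdv b) := cK _ k2.2.1 ⟨i, A.ri, A.hd⟩
  have c2 : ω (hdv (nx ω b)) = ω' (hdv (nx ω b)) := cK _ k2.2.2.1 ⟨j, A.rj, A.hd1⟩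
  have hsq : Spc q u ka (hdv b) := by
    refine Or.inr (Or.inr ⟨hdb.1, hdb.2, ?_⟩)
    have e0 : ∀ k < n, IsN q b k → hdv b = sq q u k := by
      intro k hk hbk
      have h7 := P4_be F.hq F.hu k
      rw [← hbk] at h7
      rcases ends_M4 h7 with ⟨-, -, h8, -⟩ | ⟨-, -, h8, -⟩
      · exfalso
        have := F.hu.left k
        rw [← h8] at this
        exact F.nin k2.2.1 (mem_coe.1 this)
      · exact h8
    rcases k4 with ⟨k5, -⟩ | ⟨k5, -⟩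
    · exact Or.inr (e0 _ (by omega) k5)
    · exact Or.inl (e0 _ hdb.2 k5)
  obtain ⟨ℓ', hl', hbℓ'⟩ := G'.hg b
  have hv' := hsp' ℓ' hl' ⟨b, hbℓ', hsq⟩
  have hm' : MixE (uI r) ω' b := by
    refine ⟨k2.1, k2.2.1, ?_, ?_⟩
    · rw [← nx_loc c1]; exact k2.2.2.1
    · rw [← nx_loc c1, ← c1, ← c2]; exact k2.2.2.2
  exact ⟨ℓ', mem_Lm.2 ⟨mem_Lo.2 ⟨hl', ⟨b, k2.1, hbℓ'⟩, hv'⟩, fun hno => noMix_not hl' hno hbℓ' hm'⟩,
    b, k1, hbℓ', k2, hm'⟩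

/-- The far exits. -/
theorem prod_Xs_far (F : Fam θ β r q D u ka c N s e) (C : Ctx r q D u ka c N s e B ω ℓ)
    (hs : Real.sin θ ≠ 0) (hβ : 0 < ka → ka < n → Real.cos (θ / 2 + β) = Real.sin θ)
    (hm : ¬ NoMix (uI r) ω ℓ) [DecidablePred (Nr D)] :
    ∏ b ∈ Ctx.Xs (uI r) ℓ, wS θ (uI r) (rowC θ r 0).ph ω b =
      ∏ b ∈ (Ctx.Xs (uI r) ℓ).filter (fun b => ¬ Nr D b), wS θ (uI r) (rowC θ r 0).ph ω b := by
  rw [← prod_filter_mul_prod_filter_not (Ctx.Xs (uI r) ℓ) (Nr D), prod_eq_one, one_mul]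
  intro b hb
  obtain ⟨h1, h2⟩ := mem_filter.1 hb
  obtain ⟨h3, h4, h5⟩ := Ctx.mem_Xs.1 h1
  exact C.near_one F hs hβ hm h3 h5 h4 h2

include F G G' in
/-- **The interface product.** -/
theorem prod_Lm (hs : Real.sin θ ≠ 0)
    (hβ : 0 < ka → ka < n → Real.cos (θ / 2 + β) = Real.sin θ)
    (hag : ∀ v, v ∉ D → v ∉ B → ω v = ω' v)
    (hsp : ∀ ℓ, IsLoop ω ℓ → (∃ b ∈ ℓ, Spc q u ka (hdv b)) → ¬ VisL B ℓ)
    (hsp' : ∀ ℓ, IsLoop ω' ℓ → (∃ b ∈ ℓ, Spc q u ka (hdv b)) → ¬ VisL B ℓ) :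
    ∏ ℓ ∈ Lm (uI r) B ω, fLp θ (uI r) (rowC θ r 0).ph ω ℓ =
      ∏ ℓ ∈ Lm (uI r) B ω', fLp θ (uI r) (rowC θ r 0).ph ω' ℓ := by
  classical
  have hag' : ∀ v, v ∉ D → v ∉ B → ω' v = ω v := fun v h1 h2 => (hag v h1 h2).symm
  rcases (Lm (uI r) B ω).eq_empty_or_nonempty with h0 | ⟨ℓ, hℓ⟩
  · have h1 : Lm (uI r) B ω' = ∅ := by
      rw [eq_empty_iff_forall_notMem]
      intro ℓ' hℓ'
      obtain ⟨ℓ, h2, -⟩ := Lm_ex F G' G hsp hℓ'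
      rw [h0] at h2
      exact absurd h2 (notMem_empty _)
    rw [h0, h1, prod_empty, prod_empty]
  · obtain ⟨ℓ', hℓ', b, hb, hb', hm, hm'⟩ := Lm_ex F G G' hsp' hℓ
    have hC : ∀ ℓ ∈ Lm (uI r) B ω, Ctx r q D u ka c N s e B ω ℓ ∧ ∃ b ∈ ℓ, MixE (uI r) ω b := by
      intro ℓ h
      obtain ⟨h1, h2⟩ := mem_Lm.1 h
      obtain ⟨h3, h4, h5⟩ := mem_Lo.1 h1
      have C := G.ctx h3 h5
      refine ⟨C, ?_⟩
      by_contra hno
      push Not at hno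
      exact h2 (C.noMix_of F h4 hno)
    have hC' : ∀ ℓ ∈ Lm (uI r) B ω', Ctx r q D u ka c N s e B ω' ℓ ∧
        ∃ b ∈ ℓ, MixE (uI r) ω' b := by
      intro ℓ h
      obtain ⟨h1, h2⟩ := mem_Lm.1 h
      obtain ⟨h3, h4, h5⟩ := mem_Lo.1 h1
      have C := G'.ctx h3 h5
      refine ⟨C, ?_⟩
      by_contra hno
      push Not at hno
      exact h2 (C.noMix_of F h4 hno)
    have e1 : Lm (uI r) B ω = {ℓ} := by
      rw [eq_singleton_iff_unique_mem]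
      refine ⟨hℓ, fun ℓ1 h1 => ?_⟩
      obtain ⟨C1, b1, g1, g2⟩ := hC ℓ1 h1
      exact mix_unique F C1 (hC ℓ hℓ).1 g1 g2 hb hm
    have e2 : Lm (uI r) B ω' = {ℓ'} := by
      rw [eq_singleton_iff_unique_mem]
      refine ⟨hℓ', fun ℓ1 h1 => ?_⟩
      obtain ⟨C1, b1, g1, g2⟩ := hC' ℓ1 h1
      exact mix_unique F C1 (hC' ℓ' hℓ').1 g1 g2 hb' hm'
    rw [e1, e2, prod_singleton, prod_singleton, Ctx.fLp_Xs, Ctx.fLp_Xs]
    have C := (hC ℓ hℓ).1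
    have C' := (hC' ℓ' hℓ').1
    rw [prod_Xs_far F C hs hβ (mem_Lm.1 hℓ).2, prod_Xs_far F C' hs hβ (mem_Lm.1 hℓ').2]
    have e3 : (Ctx.Xs (uI r) ℓ).filter (fun b => ¬ Nr D b) =
        (Ctx.Xs (uI r) ℓ').filter (fun b => ¬ Nr D b) := by
      ext y
      rw [mem_filter, mem_filter, Ctx.mem_Xs, Ctx.mem_Xs]
      constructor
      · rintro ⟨⟨h1, h2, h3⟩, h4⟩
        exact ⟨⟨h1, h2, Ctx.far_same F C C' hag hb hm hb' hm' h1 h3 h4⟩, h4⟩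
      · rintro ⟨⟨h1, h2, h3⟩, h4⟩
        exact ⟨⟨h1, h2, Ctx.far_same F C' C hag' hb' hm' hb hm h1 h3 h4⟩, h4⟩
    rw [e3]
    congr 1
    refine prod_congr rfl fun y hy => ?_
    rw [← e3, mem_filter, Ctx.mem_Xs] at hy
    exact C.wS_agree F hag hy.1.1 hy.1.2.2 hy.2 _

include F G G' in
/-- **(L2S (c))** The product over the loops off the holes does not depend on the squares of the
domain. -/
theorem TO_agree (hs : Real.sin θ ≠ 0) (hc : Real.cos θ ≠ 0)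
    (hβ : 0 < ka → ka < n → Real.cos (θ / 2 + β) = Real.sin θ)
    (hag : ∀ v, v ∉ D → v ∉ B → ω v = ω' v)
    (hsp : ∀ ℓ, IsLoop ω ℓ → (∃ b ∈ ℓ, Spc q u ka (hdv b)) → ¬ VisL B ℓ)
    (hsp' : ∀ ℓ, IsLoop ω' ℓ → (∃ b ∈ ℓ, Spc q u ka (hdv b)) → ¬ VisL B ℓ) :
    TO θ (uI r) (rowC θ r 0).ph B ω = TO θ (uI r) (rowC θ r 0).ph B ω' := by
  classical
  rw [TO_split _ D, TO_split _ D, prod_Lf F G G' hag, prod_Lm F G G' hs hβ hag hsp hsp',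
    prod_Ln F G hs hc, prod_Ln F G' hs hc]
  have h : (∃ ℓ ∈ Ln (uI r) D B ω, ∃ b, b ∈ Wr q u c N s e (uI r) ω ℓ) ↔
      ∃ ℓ ∈ Ln (uI r) D B ω', ∃ b, b ∈ Wr q u c N s e (uI r) ω' ℓ :=
    ⟨near_wrap_ex F G G' hsp', near_wrap_ex F G' G hsp⟩
  rw [if_congr h rfl rfl]

end

end Vale.Agent.P167.H680.S
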