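import Vale.Agent.P167.H680.S.Col

/-!
# P167, general `q`, START (L2S): the sum rule for loops of one colour and one type
-/

namespace Vale.Agent.P167.H680.S

open Finset
open Vale.Agent.P167.FK
open Vale.Agent.P167.BR
open Vale.Agent.P167.Top
open Vale.Agent.P167.H871
open Vale.Agent.P167.H871.Q
open Vale.Agent.P167.E6 (IsPolygon Encloses)
open Vale.Agent.P167.H199 (strand ret Returns loop_iter loop_nx mem_strand ret_min)
open Vale.Agent.P167.XDL (bS mem_bS exists_idx P4_be)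
open Vale.Agent.P167.H680.T (uI rowC)
open Vale.Agent.P167.H825.Q (Row)
open Vale.Agent.P167.QX (VisL wS fLp card_out_in)

variable {ι : Type} [Fintype ι] {r : ι → Row} {θ β : ℝ} {x b b0 : Ed} {ω : Cfg} {n : ℕ}
  {q : ZMod n → ℤ × ℤ} {D : Finset (ℤ × ℤ)} {u : ℕ → ℤ} {ka c N : ℕ} {s e : ℕ → ℕ}
  {B : Set (ℤ × ℤ)} {ℓ : Finset Ed}

/-- The index of a near strand. -/
def κI (ka i j : ℕ) : ℤ := if (i < ka ↔ i < j) then 0 else 1

/-- The index of a far strand. -/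
def κE (ka i j : ℕ) (σ : ℤ) : ℤ :=
  if i < ka then (if i < j then σ else σ + 1) else (if i < j then 1 - σ else -σ)

/-- The sign of a colour. -/
def sgc (τ : Bool) : ℤ := if τ = true then -1 else 1

/-- The weight of a strand between squares of the same colour. -/
noncomputable def fW (θ : ℝ) (κ : ℤ) : ℝ := Real.sin ((κ + 1 : ℤ) * θ) / Real.sin θ

theorem fW_m1 : fW θ (-1) = 0 := by unfold fW; simp

theorem fW_0 (h : Real.sin θ ≠ 0) : fW θ 0 = 1 := by unfold fW; simp [h]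

theorem fW_1 (h : Real.sin θ ≠ 0) : fW θ 1 = 2 * Real.cos θ := by
  unfold fW
  rw [show (((1 + 1 : ℤ) : ℤ) : ℝ) * θ = 2 * θ by norm_num, Real.sin_two_mul]
  field_simp

theorem fW_2 : fW θ 2 = Real.sin (3 * θ) / Real.sin θ := by
  unfold fW
  norm_num

theorem sgc_sq (τ : Bool) : sgc τ * sgc τ = 1 := by
  cases τ <;> simp [sgc]

/-- The label of a side. -/
noncomputable def gI {n : ℕ} (q : ZMod n → ℤ × ℤ) (u : ℕ → ℤ) (c N : ℕ) (s e : ℕ → ℕ)
    (K : Finset (ℤ × ℤ)) (b : Ed) : ℤ := u (idx q u c N s e (ksq K b))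

/-- The corrected turning. -/
noncomputable def cS {n : ℕ} (q : ZMod n → ℤ × ℤ) (u : ℕ → ℤ) (c N : ℕ) (s e : ℕ → ℕ)
    (K : Finset (ℤ × ℤ)) (ω : Cfg) (b : Ed) : ℤ :=
  trS (bS K) ω b - (gI q u c N s e K (nxt (bS K) ω b) - gI q u c N s e K b)

/-- The arc crosses the base point. -/
def Wrap {n : ℕ} (q : ZMod n → ℤ × ℤ) (u : ℕ → ℤ) (c N : ℕ) (s e : ℕ → ℕ) (ω : Cfg)
    (b : Ed) : Prop :=
  (idx q u c N s e (hdv b) + 1 = n ∧ idx q u c N s e (hdv (nx ω b)) = 0) ∨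
    (idx q u c N s e (hdv b) = 0 ∧ idx q u c N s e (hdv (nx ω b)) + 1 = n)

/-- The index of a side. -/
noncomputable def κS {n : ℕ} (q : ZMod n → ℤ × ℤ) (u : ℕ → ℤ) (c N : ℕ) (s e : ℕ → ℕ)
    (K : Finset (ℤ × ℤ)) (ω : Cfg) (τ : Bool) (b : Ed) : ℤ :=
  (sgc τ * cS q u c N s e K ω b + 2) / 4

theorem κS_eq {K : Finset (ℤ × ℤ)} {τ : Bool} {κ : ℤ}
    (h : cS q u c N s e K ω b = sgc τ * (4 * κ - 2)) : κS q u c N s e K ω τ b = κ := by
  unfold κS
  rw [h, ← mul_assoc, sgc_sq]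
  omega

section fam

variable (F : Fam θ β r q D u ka c N s e)

include F

/-- A near strand. -/
theorem int_tab (hx2 : hdv x ∉ uI r) (hr : Returns (nx ω) (bS (uI r)) x) {i j : ℕ}
    (E : IntS r q u c N s e ω x i j) :
    trS (bS (uI r)) ω x = gI q u c N s e (uI r) (nxt (bS (uI r)) ω x) - gI q u c N s e (uI r) x +
      (if i < j then -2 else 2) ∧ ω (ksq (uI r) x) = ω (sq q u i) ∧
      ω (ksq (uI r) (nxt (bS (uI r)) ω x)) = ω (sq q u j) := by
  have hlast := QX.exc_last hx2 hr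
  have h1 : ksq (uI r) x = sq q u i := by rw [ksq_out hx2]; exact E.tl
  have h2 : ksq (uI r) (nxt (bS (uI r)) ω x) = sq q u j := (ksq_in hlast.1).trans E.hd
  refine ⟨?_, by rw [h1], by rw [h2]⟩
  unfold gI
  rw [h1, h2, idx_sq F E.ri, idx_sq F E.rj]
  exact E.turn

/-- A far strand. -/
theorem ext_tab (hx2 : hdv x ∉ uI r) (hr : Returns (nx ω) (bS (uI r)) x) {i j : ℕ} {σ : ℤ}
    {φ : ℤ × ℤ → ℤ} (E : ExtS r q D u c N s e ω x i j σ φ) :
    trS (bS (uI r)) ω x = gI q u c N s e (uI r) (nxt (bS (uI r)) ω x) - gI q u c N s e (uI r) x +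
      (if i < j then (if σ = 1 then 2 else -6) else (if σ = 1 then 6 else -2)) ∧
      ω (ksq (uI r) x) = ω (sq q u i) ∧ ω (ksq (uI r) (nxt (bS (uI r)) ω x)) = ω (sq q u j) := by
  have hlast := QX.exc_last hx2 hr
  have h1 : ksq (uI r) x = sq q u i := by rw [ksq_out hx2]; exact E.tl
  have h2 : ksq (uI r) (nxt (bS (uI r)) ω x) = sq q u j := (ksq_in hlast.1).trans E.hd
  refine ⟨?_, by rw [h1], by rw [h2]⟩
  unfold gI
  rw [h1, h2, idx_sq F E.ri, idx_sq F E.rj]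
  exact E.turn

end fam

/-- The weights of the near strands. -/
theorem wI_fW (hs : Real.sin θ ≠ 0) {i j : ℕ} (h : i < ka ↔ j < ka) :
    wI θ β ka i j / Real.sin θ = fW θ (κI ka i j) := by
  unfold wI κI
  rw [if_pos h]
  by_cases h1 : (i < ka ↔ i < j)
  · rw [if_pos h1, if_pos h1, fW_0 hs, div_self hs]
  · rw [if_neg h1, if_neg h1, fW_1 hs, Real.sin_two_mul]
    field_simp

/-- The weights of the far strands. -/
theorem wE_fW (hs : Real.sin θ ≠ 0) {i j : ℕ} {σ : ℤ} (hσ : σ = 1 ∨ σ = -1)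
    (h : i < ka ↔ j < ka) : wE θ β ka i j σ / Real.sin θ = fW θ (κE ka i j σ) := by
  have h2 : Real.sin (2 * θ) / Real.sin θ = fW θ 1 := by
    rw [fW_1 hs, Real.sin_two_mul]; field_simp
  unfold wE κE
  by_cases h1 : i < ka
  · rw [if_pos ⟨h1, h.1 h1⟩, if_pos h1]
    rcases hσ with rfl | rfl <;> by_cases h3 : i < j
    · rw [if_pos h3, if_pos rfl, if_pos h3, h2]
    · rw [if_neg h3, if_pos rfl, if_neg h3]; exact fW_2.symm
    · rw [if_pos h3, if_neg (by norm_num), if_pos h3, fW_m1, zero_div]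
    · rw [if_neg h3, if_neg (by norm_num), if_neg h3, neg_add_cancel, fW_0 hs, div_self hs]
  · have h4 : ¬ j < ka := fun h5 => h1 (h.2 h5)
    rw [if_neg (by tauto), if_pos ⟨by omega, by omega⟩, if_neg h1]
    rcases hσ with rfl | rfl <;> by_cases h3 : i < j
    · rw [if_pos h3, if_pos rfl, if_pos h3, sub_self, fW_0 hs, div_self hs]
    · rw [if_neg h3, if_pos rfl, if_neg h3, fW_m1, zero_div]
    · rw [if_pos h3, if_neg (by norm_num), if_pos h3]; exact fW_2.symm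
    · rw [if_neg h3, if_neg (by norm_num), if_neg h3, neg_neg, h2]

namespace Ctx

variable (F : Fam θ β r q D u ka c N s e) (C : Ctx r q D u ka c N s e B ω ℓ)

include F C in
/-- **The near exits of a loop of one colour.** -/
theorem near_exit (hs : Real.sin θ ≠ 0) {τ : Bool}
    (hτ : ∀ b ∈ bS (uI r), b ∈ ℓ → ω (ksq (uI r) b) = τ) (hb : b ∈ bS (uI r)) (hbℓ : b ∈ ℓ)
    (h1 : hdv b ∉ uI r) (hN : Nr D b) :
    ∃ κ : ℤ, (κ = 0 ∨ κ = 1) ∧ cS q u c N s e (uI r) ω b = sgc τ * (4 * κ - 2) ∧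
      wS θ (uI r) (rowC θ r 0).ph ω b = fW θ κ := by
  have h2 := exit_of hb h1
  obtain ⟨hr, hc⟩ := C.exit F hbℓ h2 h1
  rcases hc with ⟨-, i, j, E⟩ | ⟨c1, -⟩
  · obtain ⟨t1, t2, t3⟩ := int_tab F h1 hr E
    have n1 := nxt_mem C.hl hb hbℓ
    rw [hτ b hb hbℓ, C.hcol i E.ri] at t2
    rw [hτ _ n1.1 n1.2, C.hcol j E.rj] at t3
    have h3 : i < ka ↔ j < ka := by
      have h4 : decide (¬ i < ka) = decide (¬ j < ka) := t2.symm.trans t3
      rw [decide_eq_decide] at h4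
      exact not_iff_not.1 h4
    refine ⟨κI ka i j, ?_, ?_, ?_⟩
    · unfold κI; split_ifs <;> simp
    · unfold cS
      rw [t1, t2]
      have hne := E.ne
      by_cases h5 : i < ka
      · have h6 : sgc (decide (¬ i < ka)) = 1 := by simp [sgc, h5]
        rw [h6]
        unfold κI
        by_cases h7 : i < j
        · rw [if_pos h7, if_pos (iff_of_true h5 h7)]; ring
        · rw [if_neg h7, if_neg (fun h => h7 (h.1 h5))]; ring
      · have h6 : sgc (decide (¬ i < ka)) = -1 := by simp only [sgc, h5]; simp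
        rw [h6]
        unfold κI
        by_cases h7 : i < j
        · rw [if_pos h7, if_neg (fun h => h5 (h.2 h7))]; ring
        · rw [if_neg h7, if_pos (iff_of_false h5 h7)]; ring
    · unfold wS
      rw [F.cos_int E h1 hr, wI_fW hs h3]
  · rcases hN with h | h
    · exact absurd h c1
    · exact absurd h (F.nin h2)

include F C in
/-- **The far exits of a loop of one colour.** -/
theorem far_exit (hs : Real.sin θ ≠ 0) {τ : Bool}
    (hτ : ∀ b ∈ bS (uI r), b ∈ ℓ → ω (ksq (uI r) b) = τ) (hb : b ∈ bS (uI r)) (hbℓ : b ∈ ℓ)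
    (h1 : hdv b ∉ uI r) (hN : ¬ Nr D b) :
    ∃ κ : ℤ, (κ = -1 ∨ κ = 0 ∨ κ = 1 ∨ κ = 2) ∧
      cS q u c N s e (uI r) ω b = sgc τ * (4 * κ - 2) ∧
      wS θ (uI r) (rowC θ r 0).ph ω b = fW θ κ := by
  have h2 := exit_of hb h1
  obtain ⟨hr, hc⟩ := C.exit F hbℓ h2 h1
  rcases hc with ⟨c1, -⟩ | ⟨c1, -, i, j, σ, φ, E⟩
  · exact absurd (Or.inl c1) hN
  · obtain ⟨t1, t2, t3⟩ := ext_tab F h1 hr E
    have n1 := nxt_mem C.hl hb hbℓ
    have hσ := E.pot.sgn
    rw [hτ b hb hbℓ, C.hcol i E.ri] at t2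
    rw [hτ _ n1.1 n1.2, C.hcol j E.rj] at t3
    have h3 : i < ka ↔ j < ka := by
      have h4 : decide (¬ i < ka) = decide (¬ j < ka) := t2.symm.trans t3
      rw [decide_eq_decide] at h4
      exact not_iff_not.1 h4
    refine ⟨κE ka i j σ, ?_, ?_, ?_⟩
    · unfold κE
      rcases hσ with rfl | rfl <;> split_ifs <;> simp
    · unfold cS
      rw [t1, t2]
      by_cases h5 : i < ka
      · have h6 : sgc (decide (¬ i < ka)) = 1 := by simp [sgc, h5]
        rw [h6]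
        unfold κE
        rw [if_pos h5]
        rcases hσ with rfl | rfl <;> by_cases h7 : i < j
        · rw [if_pos h7, if_pos rfl, if_pos h7]; ring
        · rw [if_neg h7, if_pos rfl, if_neg h7]; ring
        · rw [if_pos h7, if_neg (by norm_num), if_pos h7]; ring
        · rw [if_neg h7, if_neg (by norm_num), if_neg h7]; ring
      · have h6 : sgc (decide (¬ i < ka)) = -1 := by simp only [sgc, h5]; simp
        rw [h6]
        unfold κE
        rw [if_neg h5]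
        rcases hσ with rfl | rfl <;> by_cases h7 : i < j
        · rw [if_pos h7, if_pos rfl, if_pos h7]; ring
        · rw [if_neg h7, if_pos rfl, if_neg h7]; ring
        · rw [if_pos h7, if_neg (by norm_num), if_pos h7]; ring
        · rw [if_neg h7, if_neg (by norm_num), if_neg h7]; ring
    · unfold wS
      rw [F.cos_far E h1 hr, wE_fW hs hσ h3]

open Classical in
include F C in
/-- **The entries of a loop of one colour.** -/
theorem entry_c (hmix : NoMix (uI r) ω ℓ) {τ : Bool}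
    (hτ : ∀ b ∈ bS (uI r), b ∈ ℓ → ω (ksq (uI r) b) = τ) (hb : b ∈ bS (uI r)) (hbℓ : b ∈ ℓ)
    (h1 : hdv b ∈ uI r) :
    (Nr D b → cS q u c N s e (uI r) ω b = sgc τ * (2 + 4 * if Wrap q u c N s e ω b then 1 else 0)) ∧
    (¬ Nr D b → cS q u c N s e (uI r) ω b =
      sgc τ * (2 - 4 * if Wrap q u c N s e ω b then 1 else 0)) := by
  obtain ⟨i, j, A⟩ := C.entry hbℓ h1 (entry_of hb h1)
  have hn := n_pos F
  have g1 : hdv (nx ω b) ∈ uI r := by rw [A.hd1]; exact sq_mem F A.rj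
  obtain ⟨e1, e2⟩ := arc_exit C.hl hb hbℓ A g1
  have n1 : ksq (uI r) b = sq q u i := by rw [ksq_in h1]; exact A.hd
  have n2 : ksq (uI r) (nxt (bS (uI r)) ω b) = sq q u j := by
    rw [ksq_out e1, e2]; exact A.hd1
  have c1 : ω (hdv b) = τ := by rw [← hτ b hb hbℓ, ksq_in h1]
  have c2 : ω (hdv (nx ω b)) = τ := by
    rw [hmix _ (loop_nx C.hl hbℓ) g1 (by rw [tlv_nx]; exact h1), tlv_nx]
    exact c1
  have t1 : trS (bS (uI r)) ω b = 2 * sgc τ := by
    rw [arc_tr A, trn_col, trn_col, c1, c2]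
    unfold sgc
    split_ifs <;> norm_num
  have i1 : idx q u c N s e (hdv b) = i := idx_of F A.ri A.hd
  have i2 : idx q u c N s e (hdv (nx ω b)) = j := idx_of F A.rj A.hd1
  have k1 : cS q u c N s e (uI r) ω b = 2 * sgc τ - (u j - u i) := by
    unfold cS gI
    rw [t1, n1, n2, idx_sq F A.ri, idx_sq F A.rj]
  have nF : ∀ {y : Ed} {k : ℕ}, InK n c N s e k → IsF q u y k → ¬ Nr D y := fun hk h h' => by
    obtain ⟨f1, f2⟩ := far_D F hk h
    rcases h' with h' | h'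
    · exact f1 h'
    · exact f2 h'
  have hi := A.hi
  have hj := A.hj
  have wu : j = (i + 1) % n → (Wrap q u c N s e ω b ↔ i + 1 = n) := by
    intro h
    unfold Wrap
    rw [i1, i2]
    rcases Nat.lt_or_ge (i + 1) n with h3 | h3
    · rw [Nat.mod_eq_of_lt h3] at h
      constructor
      · rintro (⟨h4, -⟩ | ⟨h4, h5⟩) <;> omega
      · intro h4; omega
    · have h4 : i + 1 = n := by omega
      rw [h4, Nat.mod_self] at h
      exact ⟨fun _ => h4, fun _ => Or.inl ⟨h4, h⟩⟩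
  have wd : i = (j + 1) % n → (Wrap q u c N s e ω b ↔ j + 1 = n) := by
    intro h
    unfold Wrap
    rw [i1, i2]
    rcases Nat.lt_or_ge (j + 1) n with h3 | h3
    · rw [Nat.mod_eq_of_lt h3] at h
      constructor
      · rintro (⟨h4, h5⟩ | ⟨-, h5⟩) <;> omega
      · intro h4; omega
    · have h4 : j + 1 = n := by omega
      rw [h4, Nat.mod_self] at h
      exact ⟨fun _ => h4, fun _ => Or.inr ⟨h, h4⟩⟩
  rw [k1]
  rcases A.cs with ⟨⟨a1, a2⟩ | ⟨a1, a2⟩, a3, a4, -⟩ | ⟨⟨a1, a2⟩ | ⟨a1, a2⟩, a3, a4, -⟩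
  · refine ⟨fun _ => ?_, fun h => absurd (near_D F a1) h⟩
    rw [if_congr (wu a3) rfl rfl, a4, ← c1, a2]
    unfold sgc
    split_ifs <;> simp at *
  · refine ⟨fun h => absurd h (nF A.ri a1), fun _ => ?_⟩
    rw [if_congr (wu a3) rfl rfl, a4, ← c1, a2]
    unfold sgc
    split_ifs <;> simp at *
  · refine ⟨fun _ => ?_, fun h => absurd (near_D F a1) h⟩
    rw [if_congr (wd a3) rfl rfl, a4, ← c1, a2]
    unfold sgc
    split_ifs <;> simp at *
  · refine ⟨fun h => absurd h (nF A.ri a1), fun _ => ?_⟩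
    rw [if_congr (wd a3) rfl rfl, a4, ← c1, a2]
    unfold sgc
    split_ifs <;> simp at *

/-- The exits of a loop. -/
noncomputable def Xs (K : Finset (ℤ × ℤ)) (ℓ : Finset Ed) : Finset Ed :=
  (bS K).filter fun b => hdv b ∉ K ∧ b ∈ ℓ

open Classical in
/-- The arcs of a loop which cross the base point. -/
noncomputable def Wr {n : ℕ} (q : ZMod n → ℤ × ℤ) (u : ℕ → ℤ) (c N : ℕ) (s e : ℕ → ℕ)
    (K : Finset (ℤ × ℤ)) (ω : Cfg) (ℓ : Finset Ed) : Finset Ed :=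
  ((bS K).filter fun b => hdv b ∈ K ∧ b ∈ ℓ).filter (Wrap q u c N s e ω)

omit [Fintype ι] in
theorem mem_Xs {K : Finset (ℤ × ℤ)} : b ∈ Xs K ℓ ↔ b ∈ bS K ∧ hdv b ∉ K ∧ b ∈ ℓ := by
  unfold Xs; rw [mem_filter]

theorem mem_Wr : b ∈ Wr q u c N s e (uI r) ω ℓ ↔
    b ∈ bS (uI r) ∧ hdv b ∈ uI r ∧ b ∈ ℓ ∧ Wrap q u c N s e ω b := by
  classical
  unfold Wr
  rw [mem_filter, mem_filter]
  tauto

include F C in
theorem sum_split (hS : ∃ b ∈ bS (uI r), b ∈ ℓ) {τ : Bool} {ε : ℤ}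
    (hx : ∀ b ∈ Xs (uI r) ℓ, cS q u c N s e (uI r) ω b =
      sgc τ * (4 * κS q u c N s e (uI r) ω τ b - 2))
    (hy : ∀ b ∈ bS (uI r), b ∈ ℓ → hdv b ∈ uI r → cS q u c N s e (uI r) ω b =
      sgc τ * (2 + ε * (4 * open Classical in if Wrap q u c N s e ω b then 1 else 0))) :
    ∑ b ∈ Xs (uI r) ℓ, κS q u c N s e (uI r) ω τ b + ε * (Wr q u c N s e (uI r) ω ℓ).card = 1 ∨
    ∑ b ∈ Xs (uI r) ℓ, κS q u c N s e (uI r) ω τ b + ε * (Wr q u c N s e (uI r) ω ℓ).card = -1 := by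
  classical
  have h1 := sum_rule C.hl hS (gI q u c N s e (uI r)) (cS q u c N s e (uI r) ω)
    (fun b _ _ => by unfold cS; ring)
  rw [← sum_filter_add_sum_filter_not _ (fun b => hdv b ∉ uI r), filter_filter,
    filter_filter] at h1
  have e1 : (bS (uI r)).filter (fun b => b ∈ ℓ ∧ hdv b ∉ uI r) = Xs (uI r) ℓ := by
    unfold Xs; exact filter_congr fun x _ => and_comm
  have e2 : (bS (uI r)).filter (fun b => b ∈ ℓ ∧ ¬ hdv b ∉ uI r) =
      (bS (uI r)).filter fun b => hdv b ∈ uI r ∧ b ∈ ℓ :=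
    filter_congr fun x _ => by rw [not_not, and_comm]
  rw [e1, e2, sum_congr rfl hx, sum_congr rfl fun b hb => hy b (mem_filter.1 hb).1
    (mem_filter.1 hb).2.2 (mem_filter.1 hb).2.1, ← mul_sum, ← mul_sum, sum_sub_distrib,
    sum_add_distrib, ← mul_sum, ← mul_sum, ← mul_sum, sum_boole, sum_const, sum_const] at h1
  have e3 : (Xs (uI r) ℓ).card = ((bS (uI r)).filter fun b => hdv b ∈ uI r ∧ b ∈ ℓ).card :=
    card_out_in C.hl
  have e4 : ((bS (uI r)).filter fun b => hdv b ∈ uI r ∧ b ∈ ℓ).filter (Wrap q u c N s e ω) =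
      Wr q u c N s e (uI r) ω ℓ := rfl
  rw [e4, e3] at h1
  simp only [nsmul_eq_mul] at h1
  have e5 : sgc τ = 1 ∨ sgc τ = -1 := by cases τ <;> simp [sgc]
  set M := ((bS (uI r)).filter fun b => hdv b ∈ uI r ∧ b ∈ ℓ).card
  set T := ∑ b ∈ Xs (uI r) ℓ, κS q u c N s e (uI r) ω τ b
  set w := (Wr q u c N s e (uI r) ω ℓ).card
  have e6 : sgc τ * (4 * T - (M : ℤ) * 2) + sgc τ * ((M : ℤ) * 2 + ε * (4 * (w : ℤ))) =
      4 * (sgc τ * (T + ε * w)) := by ring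
  rw [e6] at h1
  rcases e5 with h | h <;> rw [h] at h1 <;> rcases h1 with h1 | h1
  · left; linarith
  · right; linarith
  · right; linarith
  · left; linarith

include F C in
/-- **The sum rule for near loops.** -/
theorem sum_near (hmix : NoMix (uI r) ω ℓ) (hN : ∀ b ∈ bS (uI r), b ∈ ℓ → Nr D b)
    (hs : Real.sin θ ≠ 0) (hS : ∃ b ∈ bS (uI r), b ∈ ℓ) {τ : Bool}
    (hτ : ∀ b ∈ bS (uI r), b ∈ ℓ → ω (ksq (uI r) b) = τ) :
    ∑ b ∈ Xs (uI r) ℓ, κS q u c N s e (uI r) ω τ b + (Wr q u c N s e (uI r) ω ℓ).card = 1 ∨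
    ∑ b ∈ Xs (uI r) ℓ, κS q u c N s e (uI r) ω τ b + (Wr q u c N s e (uI r) ω ℓ).card = -1 := by
  have h := C.sum_split F hS (τ := τ) (ε := 1) (fun b hb => by
    obtain ⟨h1, h2, h3⟩ := mem_Xs.1 hb
    obtain ⟨κ, -, h4, -⟩ := C.near_exit F hs hτ h1 h3 h2 (hN b h1 h3)
    rw [κS_eq h4, h4]) (fun b h1 h2 h3 => by
    rw [(C.entry_c F hmix hτ h1 h2 h3).1 (hN b h1 h2)]; ring)
  rwa [one_mul] at h

include F C in
/-- **The sum rule for far loops.** -/
theorem sum_far (hmix : NoMix (uI r) ω ℓ) (hN : ∀ b ∈ bS (uI r), b ∈ ℓ → ¬ Nr D b)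
    (hs : Real.sin θ ≠ 0) (hS : ∃ b ∈ bS (uI r), b ∈ ℓ) {τ : Bool}
    (hτ : ∀ b ∈ bS (uI r), b ∈ ℓ → ω (ksq (uI r) b) = τ) :
    ∑ b ∈ Xs (uI r) ℓ, κS q u c N s e (uI r) ω τ b = 1 + (Wr q u c N s e (uI r) ω ℓ).card ∨
    ∑ b ∈ Xs (uI r) ℓ, κS q u c N s e (uI r) ω τ b = (Wr q u c N s e (uI r) ω ℓ).card - 1 := by
  have h := C.sum_split F hS (τ := τ) (ε := -1) (fun b hb => by
    obtain ⟨h1, h2, h3⟩ := mem_Xs.1 hb
    obtain ⟨κ, -, h4, -⟩ := C.far_exit F hs hτ h1 h3 h2 (hN b h1 h3)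
    rw [κS_eq h4, h4]) (fun b h1 h2 h3 => by
    rw [(C.entry_c F hmix hτ h1 h2 h3).2 (hN b h1 h2)]; ring)
  rcases h with h | h
  · left; linarith
  · right; linarith

/-- The factor of a loop as a product over the exits. -/
theorem fLp_Xs {a : Ed → Bool → ℝ} {K : Finset (ℤ × ℤ)} : fLp θ K a ω ℓ =
    (∏ b ∈ Xs K ℓ, wS θ K a ω b) / (2 * Real.cos θ) := rfl

include F C in
/-- **The factor of a near loop.** -/
theorem fLp_near (hmix : NoMix (uI r) ω ℓ) (hN : ∀ b ∈ bS (uI r), b ∈ ℓ → Nr D b)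
    (hs : Real.sin θ ≠ 0) (hc : Real.cos θ ≠ 0) (hS : ∃ b ∈ bS (uI r), b ∈ ℓ) :
    (Wr q u c N s e (uI r) ω ℓ).card ≤ 1 ∧
    fLp θ (uI r) (rowC θ r 0).ph ω ℓ =
      if (Wr q u c N s e (uI r) ω ℓ).card = 0 then 1 else 1 / (2 * Real.cos θ) := by
  obtain ⟨τ, hτ⟩ := C.col_near F hmix hN hS
  have h1 := C.sum_near F hmix hN hs hS hτ
  have h2 : ∀ b ∈ Xs (uI r) ℓ, (κS q u c N s e (uI r) ω τ b = 0 ∨
      κS q u c N s e (uI r) ω τ b = 1) ∧
      wS θ (uI r) (rowC θ r 0).ph ω b = (2 * Real.cos θ) ^ (κS q u c N s e (uI r) ω τ b).toNat := by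
    intro b hb
    obtain ⟨g1, g2, g3⟩ := mem_Xs.1 hb
    obtain ⟨κ, g4, g5, g6⟩ := C.near_exit F hs hτ g1 g3 g2 (hN b g1 g3)
    rw [κS_eq g5, g6]
    refine ⟨g4, ?_⟩
    rcases g4 with rfl | rfl
    · rw [fW_0 hs]; simp
    · rw [fW_1 hs]; simp
  have h3 : 0 ≤ ∑ b ∈ Xs (uI r) ℓ, κS q u c N s e (uI r) ω τ b := sum_nonneg fun b hb => by
    rcases (h2 b hb).1 with h | h <;> rw [h]
    norm_num
  have h4 : ∏ b ∈ Xs (uI r) ℓ, wS θ (uI r) (rowC θ r 0).ph ω b =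
      (2 * Real.cos θ) ^ (∑ b ∈ Xs (uI r) ℓ, (κS q u c N s e (uI r) ω τ b).toNat) := by
    rw [prod_congr rfl fun b hb => (h2 b hb).2, prod_pow_eq_pow_sum]
  have h5 : ((∑ b ∈ Xs (uI r) ℓ, (κS q u c N s e (uI r) ω τ b).toNat : ℕ) : ℤ) =
      ∑ b ∈ Xs (uI r) ℓ, κS q u c N s e (uI r) ω τ b := by
    push_cast
    refine sum_congr rfl fun b hb => ?_
    rcases (h2 b hb).1 with h | h <;> rw [h] <;> simp
  rw [fLp_Xs, h4]
  set w := (Wr q u c N s e (uI r) ω ℓ).card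
  set T := ∑ b ∈ Xs (uI r) ℓ, (κS q u c N s e (uI r) ω τ b).toNat
  rw [← h5] at h1 h3
  have h6 : T + w = 1 := by omega
  refine ⟨by omega, ?_⟩
  by_cases h7 : w = 0
  · rw [if_pos h7, show T = 1 by omega, pow_one, div_self (mul_ne_zero two_ne_zero hc)]
  · rw [if_neg h7, show T = 0 by omega, pow_zero]

end Ctx

end Vale.Agent.P167.H680.S
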