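import Vale.Agent.P167.QX.Kappa

/-!
# P167, general `q`, START (L2S): sums over the strands of a loop

`nxt S ω b`: the next edge of `S` on the orbit of `b`. Telescoping sums, induction and the total turning.
-/

namespace Vale.Agent.P167.H680.S

open Finset
open Vale.Agent.P167.BR
open Vale.Agent.P167.XDL (bS mem_bS)
open Vale.Agent.P167.FK
open Vale.Agent.P167.QX (returns_loop exists_strand_loop)
open Vale.Agent.P167.H199 (strand ret mem_strand loop_nx loop_iter ret_min ret_le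
  strand_sub sum_strand Returns strand_unique)

variable {ω : Cfg} {ℓ : Finset Ed} {S : Finset Ed} {b b0 e : Ed}

/-- The next edge of `S` on the orbit. -/
noncomputable def nxt (S : Finset Ed) (ω : Cfg) (b : Ed) : Ed := (nx ω)^[ret (nx ω) S b] b

theorem nxt_mem (hl : IsLoop ω ℓ) (hb : b ∈ S) (hbℓ : b ∈ ℓ) : nxt S ω b ∈ S ∧ nxt S ω b ∈ ℓ :=
  ⟨(returns_loop hl hbℓ hb).spec.2, loop_iter hl hbℓ _⟩

theorem nxt_inj (hl : IsLoop ω ℓ) {b' : Ed} (hb : b ∈ S) (hbℓ : b ∈ ℓ) (hb' : b' ∈ S)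
    (hbℓ' : b' ∈ ℓ) (h : nxt S ω b = nxt S ω b') : b = b' := by
  have key : ∀ b b' : Ed, b ∈ S → b ∈ ℓ → b' ∈ S → b' ∈ ℓ → nxt S ω b = nxt S ω b' →
      ret (nx ω) S b ≤ ret (nx ω) S b' → b = b' := by
    intro b b' hb hbℓ hb' hbℓ' h hle
    obtain ⟨d, hd⟩ := Nat.exists_eq_add_of_le hle
    unfold nxt at h
    rw [hd, Function.iterate_add_apply] at h
    have h1 : b = (nx ω)^[d] b' := (s_nx ω).1.iterate _ h
    rcases Nat.eq_zero_or_pos d with rfl | hd0
    · exact h1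
    · exfalso
      obtain ⟨g1, -⟩ := (returns_loop hl hbℓ hb).spec
      have := ret_min (f := nx ω) (S := S) (e := b') (k := d) hd0 (by omega)
      exact this (h1 ▸ hb)
  rcases le_total (ret (nx ω) S b) (ret (nx ω) S b') with hle | hle
  · exact key b b' hb hbℓ hb' hbℓ' h hle
  · exact (key b' b hb' hbℓ' hb hbℓ h.symm hle).symm

theorem nxt_image (hl : IsLoop ω ℓ) [DecidablePred (· ∈ ℓ)] :
    (S.filter (· ∈ ℓ)).image (nxt S ω) = S.filter (· ∈ ℓ) := by
  apply eq_of_subset_of_card_le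
  · intro y hy
    obtain ⟨x, hx, rfl⟩ := mem_image.1 hy
    obtain ⟨h1, h2⟩ := mem_filter.1 hx
    exact mem_filter.2 (nxt_mem hl h1 h2)
  · rw [card_image_of_injOn]
    intro x hx y hy h
    obtain ⟨h1, h2⟩ := mem_filter.1 (mem_coe.1 hx)
    obtain ⟨h3, h4⟩ := mem_filter.1 (mem_coe.1 hy)
    exact nxt_inj hl h1 h2 h3 h4 h

/-- **Telescoping.** -/
theorem tel (hl : IsLoop ω ℓ) [DecidablePred (· ∈ ℓ)] (g : Ed → ℤ) :
    ∑ b ∈ S.filter (· ∈ ℓ), (g (nxt S ω b) - g b) = 0 := by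
  rw [sum_sub_distrib, sub_eq_zero]
  conv_rhs => rw [← nxt_image hl]
  rw [sum_image]
  intro x hx y hy h
  obtain ⟨h1, h2⟩ := mem_filter.1 (mem_coe.1 hx)
  obtain ⟨h3, h4⟩ := mem_filter.1 (mem_coe.1 hy)
  exact nxt_inj hl h1 h2 h3 h4 h

/-- **Induction along the edges of `S` on the loop.** -/
theorem nxt_induct (hl : IsLoop ω ℓ) {P : Ed → Prop}
    (hP : ∀ b, b ∈ S → b ∈ ℓ → P b → P (nxt S ω b)) (hb0 : b0 ∈ S) (hb0ℓ : b0 ∈ ℓ) (h0 : P b0)
    (hb : b ∈ S) (hbℓ : b ∈ ℓ) : P b := by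
  obtain ⟨m, hm⟩ := (H685.loop_gen hl hb0ℓ b).1 hbℓ
  induction m using Nat.strong_induction_on generalizing b0 with
  | _ m ih =>
    rcases Nat.eq_zero_or_pos m with rfl | hm0
    · rw [← hm]; exact h0
    · obtain ⟨g1, -⟩ := (returns_loop hl hb0ℓ hb0).spec
      have h1 : ret (nx ω) S b0 ≤ m := ret_le hm0 (by rw [hm]; exact hb)
      obtain ⟨h2, h3⟩ := nxt_mem hl hb0 hb0ℓ
      refine ih (m - ret (nx ω) S b0) (by omega) h2 h3 (hP _ hb0 hb0ℓ h0) ?_
      unfold nxt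
      rw [← Function.iterate_add_apply, Nat.sub_add_cancel h1]
      exact hm

/-- The turning of a strand. -/
noncomputable def trS (S : Finset Ed) (ω : Cfg) (b : Ed) : ℤ :=
  ∑ k ∈ range (ret (nx ω) S b), trn ω ((nx ω)^[k] b)

/-- **The total turning is the sum over the strands.** -/
theorem turn_strands (hl : IsLoop ω ℓ) [DecidablePred (· ∈ ℓ)] (hS : ∃ e ∈ S, e ∈ ℓ) :
    ∑ e ∈ ℓ, trn ω e = ∑ b ∈ S.filter (· ∈ ℓ), trS S ω b := by
  classical
  have h : ℓ = (S.filter (· ∈ ℓ)).biUnion fun e => strand (nx ω) S e := by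
    ext x
    rw [mem_biUnion]
    constructor
    · intro hx
      obtain ⟨e, he, hxe⟩ := exists_strand_loop hl hS hx
      exact ⟨e, by convert he, hxe⟩
    · rintro ⟨e, he, hx⟩
      exact strand_sub hl (mem_filter.1 he).2 S hx
  conv_lhs => rw [h]
  rw [sum_biUnion]
  · refine sum_congr rfl fun e he => ?_
    unfold trS
    rw [sum_strand (s_nx ω).injective (mem_filter.1 he).1]
  · intro e he e' he' hne
    rw [Function.onFun, Finset.disjoint_left]
    intro x hx hx'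
    exact hne (strand_unique (s_nx ω).1 (mem_filter.1 he).1 (mem_filter.1 he').1 hx hx')

/-- **The sum rule.** `g`: a function of the edges, `c` the corrected turnings. -/
theorem sum_rule (hl : IsLoop ω ℓ) [DecidablePred (· ∈ ℓ)] (hS : ∃ e ∈ S, e ∈ ℓ) (g c : Ed → ℤ)
    (hc : ∀ b, b ∈ S → b ∈ ℓ → trS S ω b = g (nxt S ω b) - g b + c b) :
    ∑ b ∈ S.filter (· ∈ ℓ), c b = 4 ∨ ∑ b ∈ S.filter (· ∈ ℓ), c b = -4 := by
  have h1 := turn_strands hl hS
  rw [sum_congr rfl fun b hb => hc b (mem_filter.1 hb).1 (mem_filter.1 hb).2, sum_add_distrib,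
    tel hl g, zero_add] at h1
  rw [← h1]
  rcases turn_loop hl with h | h
  · exact Or.inl h.1
  · exact Or.inr h.1

end Vale.Agent.P167.H680.S
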