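import Vale.Agent.P167.H680.S.ADefs
import Vale.Agent.P167.H680.S.Tel

/-!
# P167, general `q`, START (L2S): sites and squares of a family of rows
-/

namespace Vale.Agent.P167.H680.S

open Finset
open Vale.Agent.P167.FK
open Vale.Agent.P167.Top
open Vale.Agent.P167.H871
open Vale.Agent.P167.H871.Q
open Vale.Agent.P167.E6 (IsPolygon Encloses)
open Vale.Agent.P167.H199 (strand ret Returns loop_iter)
open Vale.Agent.P167.BR (be be_even be_odd)
open Vale.Agent.P167.XDL (bS mem_bS exists_idx P4_be)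
open Vale.Agent.P167.H680.T (uI)
open Vale.Agent.P167.H825.Q (Row)
open Vale.Agent.P167.QX (VisL)

variable {ι : Type} [Fintype ι] {r : ι → Row} {θ β : ℝ} {x : Ed} {ω : Cfg} {n : ℕ}
  {q : ZMod n → ℤ × ℤ} {D : Finset (ℤ × ℤ)} {u : ℕ → ℤ} {ka c N : ℕ} {s e : ℕ → ℕ}

theorem M4_left {v v' : ℤ × ℤ} {t t' : ℤ} (h : M4 v t = M4 v' t') (ht : t % 4 = t' % 4) : v = v' := by
  rw [M4_eq, M4_eq, dx_congr ht, dy_congr ht] at h
  simp only [Prod.mk.injEq] at h
  ext <;> omega

/-- The sites of the edge across the step from `v` in the direction `t`. -/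
theorem ends_M4 {v : ℤ × ℤ} {t : ℤ} (h : P4 x = M4 v t) :
    (ls x = v ∧ rs x = v + vec t ∧ hdv x = sqL v t ∧ tlv x = sqL v (t - 1)) ∨
      (rs x = v ∧ ls x = v + vec t ∧ hdv x = sqL v (t - 1) ∧ tlv x = sqL v t) := by
  obtain ⟨r1, r2, -⟩ := rs_eq x
  rcases side h with ⟨h1, h2, h3⟩ | ⟨h1, h2, h3⟩
  · left
    have h4 : ls x = v := M4_left (t := hd4 x - 1) (t' := t) (by rw [← r2, h]) (by omega)
    refine ⟨h4, ?_, h2, h3⟩
    rw [r1, h4, vec_congr (show (hd4 x - 1) % 4 = t % 4 by omega)]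
  · right
    have h4 : ls x = v + vec t := M4_left (t := hd4 x - 1) (t' := t + 2)
      (by rw [← r2, h, M4_rev]) (by omega)
    refine ⟨?_, h4, h2, h3⟩
    have h5 : vec (t + 2) = - vec t := by
      rw [vec_back]
    rw [r1, h4, vec_congr (show (hd4 x - 1) % 4 = (t + 2) % 4 by omega), h5]
    abel

/-- The square of the rows outside of the step `i`. -/
def sq (q : ZMod n → ℤ × ℤ) (u : ℕ → ℤ) (i : ℕ) : ℤ × ℤ := sqL (q (i : ZMod n)) (u i - 1)

section fam

variable (F : Fam θ β r q D u ka c N s e)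

include F

theorem n_pos : 2 < n := F.hq.1

/-- Window index of a step. -/
theorem win {i : ℕ} (hi : InK n c N s e i) : ∃ w < n, InR N s e w ∧ (w + c) % n = i := by
  obtain ⟨w, ⟨a, ha, h1, h2⟩, h3⟩ := hi
  have := F.hR.h3 a ha
  exact ⟨w, by omega, ⟨a, ha, h1, h2⟩, h3⟩

theorem InK_lt {i : ℕ} (hi : InK n c N s e i) : i < n := by
  obtain ⟨w, -, -, h⟩ := win F hi
  have := n_pos F
  rw [← h]
  exact Nat.mod_lt _ (by omega)

theorem u_mod4 (k : ℕ) : u k % 4 = u (k % n) % 4 := by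
  obtain ⟨g1, -⟩ := F.hu.perN (k % n) (k / n)
  rw [Nat.mod_add_div] at g1
  rw [g1, mul_one]
  omega

omit F [Fintype ι] in
theorem q_mod (k : ℕ) : q ((k % n : ℕ) : ZMod n) = q (k : ZMod n) := by
  rw [ZMod.natCast_mod]

theorem sq_mod (k : ℕ) : sqL (q (k : ZMod n)) (u k - 1) = sq q u (k % n) := by
  unfold sq
  rw [q_mod (q := q)]
  exact sqL_congr (by have := u_mod4 F k; omega)

theorem yK_mod (k : ℕ) : q (k : ZMod n) + vec (u k - 1) = yK q u (k % n) := by
  unfold yK
  rw [q_mod (q := q), vec_congr (show (u k - 1) % 4 = (u (k % n) - 1) % 4 by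
    have := u_mod4 F k; omega)]

/-- The squares of different steps of the rows are different. -/
theorem sq_inj {i j : ℕ} (hi : InK n c N s e i) (hj : InK n c N s e j) (h : sq q u i = sq q u j) :
    i = j := by
  obtain ⟨w, hw, ⟨a, ha, h1, h2⟩, rfl⟩ := win F hi
  obtain ⟨w', hw', h3, rfl⟩ := win F hj
  rw [← sq_mod F, ← sq_mod F] at h
  have hB := F.hR.bmp ha
  have h4 : sqL (q ((w' + c : ℕ) : ZMod n)) (u (w' + c) - 1) ∈
      osqs (fun k => q ((k + c : ℕ) : ZMod n)) (fun k => u (k + c)) (s a) (e a) := by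
    rw [← h]
    exact ⟨w, h1, h2, rfl⟩
  have h5 : s a ≤ w' ∧ w' < e a := by
    by_contra h6
    exact hB.off hw' (by omega) h4
  have u1 : u (w + c) = u (s a + c) := F.hR.str a ha w (by omega) (by omega)
  have u2 : u (w' + c) = u (s a + c) := F.hR.str a ha w' (by omega) (by omega)
  rw [u1, u2] at h
  have h6 : q ((w + c : ℕ) : ZMod n) = q ((w' + c : ℕ) : ZMod n) := by
    unfold sqL at h
    simp only [Prod.mk.injEq] at h
    ext <;> omega
  have h7 := F.hq.2.1 h6
  rw [ZMod.natCast_eq_natCast_iff'] at h7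
  exact h7

/-- The far sites are not on the polygon. -/
theorem yK_off {i : ℕ} (hi : InK n c N s e i) (k : ℕ) : q (k : ZMod n) ≠ yK q u i ∧
    q (k : ZMod n) ≠ yK q u i + vec (u i) := by
  obtain ⟨w, hw, ⟨a, ha, h1, h2⟩, rfl⟩ := win F hi
  have hfree := F.hR.free a ha
  have u1 : u (w + c) = u (s a + c) := F.hR.str a ha w (by omega) (by omega)
  have hn := n_pos F
  have hc := F.hc
  have hk : q (k : ZMod n) = q (((k + (n - c) : ℕ) + c : ℕ) : ZMod n) := by
    congr 1
    rw [show k + (n - c) + c = k + n by omega]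
    push_cast
    simp
  constructor
  · rw [← yK_mod F, hk, u1]
    exact hfree w h1 (by omega) (k + (n - c))
  · have h3 := hfree (w + 1) (by omega) (by omega) (k + (n - c))
    have h4 := F.hR.bd.step w
    rw [← yK_mod F, hk, ← vec_congr (u_mod4 F (w + c)), u1]
    intro h5
    apply h3
    rw [h5, h4]
    show _ = q ((w + c : ℕ) : ZMod n) + vec (u (w + c)) + vec (u (s a + c) - 1)
    rw [u1]
    abel

theorem near_D {i : ℕ} (hx : IsN q x i) : hdv x ∈ D ∨ tlv x ∈ D := by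
  rw [hx]
  rcases BR.be_bd F.hq F.hD (i : ZMod n) with h | h
  · exact Or.inl h.1
  · exact Or.inr h.1

theorem far_D {i : ℕ} (hi : InK n c N s e i) (hx : IsF q u x i) : hdv x ∉ D ∧ tlv x ∉ D := by
  have hin : ∀ v, v ∈ uI r → v ∉ D := fun v => F.nin
  have hsq : sq q u i ∉ D := by
    have := F.hu.right i
    exact fun h => this (mem_coe.2 h)
  -- one of the two squares is outside of `D`; if the other one is in `D`, the edge is a side of `D`
  have key : ¬ (x ∈ bS D) := by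
    intro h
    obtain ⟨k, -, rfl⟩ := exists_idx F.hq F.hD F.hu h
    have h1 := P4_be F.hq F.hu k
    have h2 := ends_M4 h1
    have h3 := ends_M4 hx
    obtain ⟨o1, o2⟩ := yK_off F hi k
    rcases h2 with ⟨a1, a2, -⟩ | ⟨a1, a2, -⟩ <;> rcases h3 with ⟨b1, b2, -⟩ | ⟨b1, b2, -⟩
    · exact o1 (a1.symm.trans b1)
    · exact o2 (a1.symm.trans b2)
    · exact o2 (a1.symm.trans b2)
    · exact o1 (a1.symm.trans b1)
  -- the square of the row
  have h3 : hdv x = sq q u i ∨ tlv x = sq q u i := by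
    have h4 : sqL (yK q u i) (u i) = sq q u i := by
      have := sqL_next' (q (i : ZMod n)) (u i - 1)
      rw [sub_add_cancel] at this
      exact this
    rcases ends_M4 hx with ⟨-, -, h5, -⟩ | ⟨-, -, -, h5⟩
    · exact Or.inl (h5.trans h4)
    · exact Or.inr (h5.trans h4)
  rw [mem_bS] at key
  rcases h3 with h3 | h3
  · rw [h3] at key ⊢
    exact ⟨hsq, fun h => key (Or.inr ⟨hsq, h⟩)⟩
  · rw [h3] at key ⊢
    exact ⟨fun h => key (Or.inl ⟨h, hsq⟩), hsq⟩

/-! ### index of a square -/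

open Classical in
/-- The index of a square of the rows. -/
noncomputable def idx {n : ℕ} (q : ZMod n → ℤ × ℤ) (u : ℕ → ℤ) (c N : ℕ) (s e : ℕ → ℕ)
    (v : ℤ × ℤ) : ℕ :=
  if h : ∃ i, InK n c N s e i ∧ v = sq q u i then h.choose else 0

theorem idx_sq {i : ℕ} (hi : InK n c N s e i) : idx q u c N s e (sq q u i) = i := by
  have h : ∃ j, InK n c N s e j ∧ sq q u i = sq q u j := ⟨i, hi, rfl⟩
  unfold idx
  rw [dif_pos h]
  exact (sq_inj F hi h.choose_spec.1 h.choose_spec.2).symm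

theorem idx_of {i : ℕ} {v : ℤ × ℤ} (hi : InK n c N s e i) (h : v = sq q u i) :
    idx q u c N s e v = i := by
  rw [h]; exact idx_sq F hi

end fam

end Vale.Agent.P167.H680.S
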